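import Vale.Agent.P204.Full.Global.JRead
import Vale.Agent.P204.Full.Dual.Gauge

/-!
P204, step 5: pointwise facts about `df ∧ α` and about multiples of exact forms (helper76).
-/

namespace Vale.Agent.P204.Full.Step5

open Set Metric Filter
open scoped Manifold ContDiff Topology

set_option linter.unusedSectionVars false

universe u

variable {M : Type u} [TopologicalSpace M] [ChartedSpace E4 M]

/-- `df ∧ α` -/
noncomputable def wedgeDF (f : M → ℝ) (α : M → E4 → ℝ) : M → E4 → E4 → ℝ :=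
  fun x u v => dFn f x u * α x v - dFn f x v * α x u

/-- `(α ∘ J) ∧ α`, nonnegative on complex lines -/
def aac (J : M → E4 → E4) (α : M → E4 → ℝ) : M → E4 → E4 → ℝ :=
  fun x u v => α x (J x u) * α x v - α x (J x v) * α x u

/-- the gradient of a function in a chart -/
noncomputable def gradC (c : OpenPartialHomeomorph M E4) (f : M → ℝ) (y : E4) : C1 :=
  fun i => pd (fun z => f (c.symm z)) i y

theorem mem_of_rho_ne (S : Setup M) {i : Fin S.at_.n} {x : M} (h : S.at_.rho i x ≠ 0) :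
    x ∈ (S.at_.chart i).source ∧ S.at_.chart i x ∈ ball (0 : E4) 1 :=
  S.at_.rho_support i (subset_tsupport _ h)

theorem exists_rho_ne (S : Setup M) (x : M) : ∃ i, S.at_.rho i x ≠ 0 := by
  by_contra h
  push Not at h
  simpa [h] using S.at_.rho_sum x

theorem abs_readJ_le (S : Setup M) (i : Fin S.at_.n) {y : E4} (hy : y ∈ closedBall (0 : E4) 4)
    (p q : Fin 4) : |readJ (S.at_.chart i) S.J y p q| ≤ 2 := by
  have h0 : |J0 p q| ≤ 1 := by fin_cases p <;> fin_cases q <;> simp [J0]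
  have h1 := abs_sub_abs_le_abs_sub (readJ (S.at_.chart i) S.J y p q) (J0 p q)
  linarith [S.at_.near_std i y hy p q]

theorem norm_wedge11_le (g r : C1) : ‖wedge11 g r‖ ≤ 2 * ‖g‖ * ‖r‖ := by
  refine (pi_norm_le_iff_of_nonneg (by positivity)).2 fun a =>
    (pi_norm_le_iff_of_nonneg (by positivity)).2 fun b => ?_
  rw [wedge11, Real.norm_eq_abs]
  calc |g a * r b - g b * r a| ≤ |g a * r b| + |g b * r a| := abs_sub _ _
    _ ≤ ‖g‖ * ‖r‖ + ‖g‖ * ‖r‖ := by
      rw [abs_mul, abs_mul]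
      exact add_le_add
        (mul_le_mul (norm_le_pi_norm g a) (norm_le_pi_norm r b) (abs_nonneg _) (norm_nonneg _))
        (mul_le_mul (norm_le_pi_norm g b) (norm_le_pi_norm r a) (abs_nonneg _) (norm_nonneg _))
    _ = 2 * ‖g‖ * ‖r‖ := by ring

theorem abs_coef_le_norm (R : C2) (a b : Fin 4) : |R a b| ≤ ‖R‖ :=
  (norm_le_pi_norm (R a) b).trans (norm_le_pi_norm R a)

theorem norm_p11C_le {A : Matrix (Fin 4) (Fin 4) ℝ} (hA : ∀ p q, |A p q| ≤ 2) (R : C2) :
    ‖p11C A R‖ ≤ 33 * ‖R‖ := by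
  refine (pi_norm_le_iff_of_nonneg (by positivity)).2 fun a =>
    (pi_norm_le_iff_of_nonneg (by positivity)).2 fun b => ?_
  rw [p11C, Real.norm_eq_abs, abs_div, abs_two, div_le_iff₀ two_pos]
  have h1 : |pullC A R a b| ≤ ∑ _c : Fin 4, ∑ _d : Fin 4, 4 * ‖R‖ := by
    refine (Finset.abs_sum_le_sum_abs _ _).trans (Finset.sum_le_sum fun c _ =>
      (Finset.abs_sum_le_sum_abs _ _).trans (Finset.sum_le_sum fun d _ => ?_))
    rw [abs_mul, abs_mul]
    calc |A c a| * |A d b| * |R c d| ≤ 2 * 2 * ‖R‖ := by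
          gcongr
          · exact hA c a
          · exact hA d b
          · exact abs_coef_le_norm R c d
      _ = 4 * ‖R‖ := by ring
  simp only [Finset.sum_const, Finset.card_univ, Fintype.card_fin, nsmul_eq_mul,
    Nat.cast_ofNat] at h1
  have h3 := abs_coef_le_norm R a b
  linarith [abs_add_le (R a b) (pullC A R a b), norm_nonneg R]

variable [IsManifold (𝓡 4) ∞ M]

theorem isAltField_wedgeDF (f : M → ℝ) {α : M → E4 → ℝ} (hα : ∀ x, IsLinearMap ℝ (α x)) :
    IsAltField (wedgeDF f α) := by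
  refine ⟨fun x u => ⟨fun a b => ?_, fun r a => ?_⟩, fun x u v => ?_⟩
  · simp only [wedgeDF, dFn_add_arg, (hα x).map_add]; ring
  · simp only [wedgeDF, dFn_smul_arg, (hα x).map_smul, smul_eq_mul]; ring
  · simp only [wedgeDF]; ring

theorem readC_wedgeDF {f : M → ℝ} (hf : IsSmoothFn f) (α : M → E4 → ℝ)
    {c : OpenPartialHomeomorph M E4} (hc : IsChart c) {y : E4} (hy : y ∈ c.target) :
    readC c (wedgeDF f α) y = wedge11 (gradC c f y) (read1 c α y) := by
  funext a b
  simp only [readC, wedgeDF, dFn_dInv hf hc hy]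
  rfl

theorem isTwoForm_wedgeDF {f : M → ℝ} (hf : IsSmoothFn f) {α : M → E4 → ℝ} (hα : IsOneForm α) :
    IsTwoForm (wedgeDF f α) := by
  refine isTwoForm_of_readC (isAltField_wedgeDF f hα.1) fun p => ?_
  set c := chartAt E4 p
  have hc := isChart_chartAt (M := M) p
  have hp : p ∈ c.source := mem_chart_source E4 p
  have hn := c.open_target.mem_nhds (c.map_source hp)
  refine ⟨c, hc, hp, ?_⟩
  have hg : ∀ i, ContDiffAt ℝ ∞ (fun z => gradC c f z i) (c p) := fun i =>
    (((hf.contDiffOn hc).fderiv_of_isOpen c.open_target (m := ∞) (by simp)).clm_apply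
      contDiffOn_const).contDiffAt hn
  have hr : ∀ i, ContDiffAt ℝ ∞ (fun z => read1 c α z i) (c p) := fun i =>
    (contDiffOn_pi.1 (hα.contDiffOn_read1 hc) i).contDiffAt hn
  refine ContDiffAt.congr_of_eventuallyEq ?_
    (eventually_of_mem hn fun z hz => readC_wedgeDF hf α hc hz)
  exact contDiffAt_pi.2 fun a => contDiffAt_pi.2 fun b =>
    ((hg a).mul (hr b)).sub ((hg b).mul (hr a))

theorem norm_gradC_sq_le {J : M → E4 → E4} (hJ : IsAlmostComplex J) {f : M → ℝ}
    (hf : IsSmoothFn f) {c : OpenPartialHomeomorph M E4} (hc : IsChart c) {y : E4}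
    (hy : y ∈ c.target) (hA : ∀ p q, |readJ c J y p q| ≤ 2) :
    ‖gradC c f y‖ ^ 2 ≤ 32 * ‖readC c (dfdcf J f) y‖ := by
  set g := gradC c f y
  set A := readJ c J y
  set R := readC c (dfdcf J f) y with hR
  set u := A.transpose.mulVec g with hu
  have hRe : R = wedge11 u g := readC_dfdcf hJ hf hc hy
  have hAu : A.transpose.mulVec u = -g := by
    rw [hu, Matrix.mulVec_mulVec, ← Matrix.transpose_mul, readJ_mul_self hJ hc hy,
      Matrix.transpose_neg, Matrix.transpose_one, Matrix.neg_mulVec, Matrix.one_mulVec]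
  have key : ∑ a, ∑ b, A b a * R a b = ∑ a, (u a * u a + g a * g a) := by
    simp only [hRe, wedge11, mul_sub, Finset.sum_sub_distrib, Finset.sum_add_distrib]
    have e1 : ∑ a, ∑ b, A b a * (u a * g b) = ∑ a, u a * u a := by
      refine Finset.sum_congr rfl fun a _ => ?_
      conv_rhs => arg 2; simp only [hu, Matrix.mulVec, dotProduct, Matrix.transpose_apply]
      rw [Finset.mul_sum]
      exact Finset.sum_congr rfl fun b _ => by ring
    have e2 : ∑ a, ∑ b, A b a * (u b * g a) = -∑ a, g a * g a := by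
      rw [← Finset.sum_neg_distrib]
      refine Finset.sum_congr rfl fun a _ => ?_
      rw [← neg_mul, ← Pi.neg_apply, ← hAu]
      simp only [Matrix.mulVec, dotProduct, Matrix.transpose_apply, Finset.sum_mul]
      exact Finset.sum_congr rfl fun b _ => by ring
    rw [e1, e2]; ring
  have hup : ∑ a, ∑ b, A b a * R a b ≤ ∑ _a : Fin 4, ∑ _b : Fin 4, 2 * ‖R‖ :=
    Finset.sum_le_sum fun a _ => Finset.sum_le_sum fun b _ => (le_abs_self _).trans (by
      rw [abs_mul]; exact mul_le_mul (hA b a) (abs_coef_le_norm R a b) (abs_nonneg _) two_pos.le)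
  simp only [Finset.sum_const, Finset.card_univ, Fintype.card_fin, nsmul_eq_mul,
    Nat.cast_ofNat] at hup
  have hS : ∀ a, g a ^ 2 ≤ 32 * ‖R‖ := fun a => by
    have h1 : u a * u a + g a * g a ≤ ∑ a, (u a * u a + g a * g a) :=
      Finset.single_le_sum (f := fun a => u a * u a + g a * g a)
        (fun a _ => add_nonneg (mul_self_nonneg _) (mul_self_nonneg _)) (Finset.mem_univ a)
    nlinarith [mul_self_nonneg (u a)]
  have hn : ‖g‖ ≤ Real.sqrt (32 * ‖R‖) := (pi_norm_le_iff_of_nonneg (Real.sqrt_nonneg _)).2 fun a =>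
    Real.le_sqrt_of_sq_le (by rw [Real.norm_eq_abs, sq_abs]; exact hS a)
  exact (Real.le_sqrt (norm_nonneg _) (by positivity)).1 hn

/-- weighted comparison of pointwise norms, chart by chart -/
theorem nrm_le_nrm_add (S : Setup M) {a b d : ℝ} {w η : M → E4 → E4 → ℝ} {x : M}
    (h : ∀ i, S.at_.rho i x ≠ 0 → a * ‖S.read i w (S.at_.chart i x)‖ ≤
      b * ‖S.read i η (S.at_.chart i x)‖ + d) : a * S.nrm w x ≤ b * S.nrm η x + d := by
  have hd : d = ∑ i, S.at_.rho i x * d := by rw [← Finset.sum_mul, S.at_.rho_sum, one_mul]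
  rw [Setup.nrm, Setup.nrm, Finset.mul_sum, Finset.mul_sum, hd, ← Finset.sum_add_distrib]
  refine Finset.sum_le_sum fun i _ => ?_
  by_cases hi : S.at_.rho i x = 0
  · simp [hi]
  · have := mul_le_mul_of_nonneg_left (h i hi) (S.at_.rho_nonneg i x)
    linarith

theorem nrm_smulFn (S : Setup M) (f : M → ℝ) (w : M → E4 → E4 → ℝ) (x : M) :
    S.nrm (smulFn f w) x = |f x| * S.nrm w x := by
  rw [Setup.nrm, Setup.nrm, Finset.mul_sum]
  refine Finset.sum_congr rfl fun i _ => ?_
  by_cases hi : S.at_.rho i x = 0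
  · simp [hi]
  · rw [Setup.read, readC_smulFn, norm_smul, Real.norm_eq_abs,
      (S.at_.chart i).left_inv (mem_of_rho_ne S hi).1]
    simp only [Setup.read]
    ring

theorem nrm_p11_le (S : Setup M) {w : M → E4 → E4 → ℝ} (hw : IsAltField w) (x : M) :
    S.nrm (p11 S.J w) x ≤ 33 * S.nrm w x := by
  have h := nrm_le_nrm_add S (a := 1) (b := 33) (d := 0) (w := p11 S.J w) (η := w) (x := x)
    fun i hi => by
    obtain ⟨hs, hb⟩ := mem_of_rho_ne S hi
    rw [one_mul, add_zero, Setup.read,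
      readC_p11 S.isJ hw (S.at_.mem_maximal i) ((S.at_.chart i).map_source hs)]
    exact norm_p11C_le (fun p q => abs_readJ_le S i
      (closedBall_subset_closedBall (by norm_num) (ball_subset_closedBall hb)) p q) _
  simpa using h

theorem exists_read1_bound (S : Setup M) {α : M → E4 → ℝ} (hα : IsOneForm α) :
    ∃ R, 0 ≤ R ∧ ∀ i, ∀ y ∈ closedBall (0 : E4) 1, ‖read1 (S.at_.chart i) α y‖ ≤ R := by
  choose B hB using fun i => (isCompact_closedBall (0 : E4) 1).exists_bound_of_continuousOn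
    ((hα.contDiffOn_read1 (S.at_.mem_maximal i)).continuousOn.mono
      ((closedBall_subset_closedBall (by norm_num)).trans (S.at_.ball_subset i)))
  refine ⟨∑ i, max (B i) 0, Finset.sum_nonneg fun i _ => le_max_right _ _, fun i y hy => ?_⟩
  exact ((hB i y hy).trans (le_max_left _ _)).trans
    (Finset.single_le_sum (f := fun i => max (B i) 0) (fun j _ => le_max_right _ _)
      (Finset.mem_univ i))

/-- `df ∧ α` in norm is controlled by the square root of `df ∧ dᶜf` -/
theorem exists_nrm_wedgeDF_le (S : Setup M) {α : M → E4 → ℝ} (hα : IsOneForm α) :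
    ∃ C, 0 ≤ C ∧ ∀ f : M → ℝ, IsSmoothFn f → ∀ x,
      S.nrm (wedgeDF f α) x ^ 2 ≤ C * S.nrm (dfdcf S.J f) x ∧
      ∀ e : ℝ, 0 ≤ e → e * S.nrm (wedgeDF f α) x ≤ C * (e ^ 2 * S.nrm (dfdcf S.J f) x + 1) := by
  obtain ⟨R, hR0, hR⟩ := exists_read1_bound S hα
  refine ⟨128 * R ^ 2 + 32 * R + R, by positivity, fun f hf x => ?_⟩
  have hi : ∀ i, S.at_.rho i x ≠ 0 →
      ∃ g, 0 ≤ g ∧ ‖S.read i (wedgeDF f α) (S.at_.chart i x)‖ ≤ 2 * g * R ∧
        g ^ 2 ≤ 32 * ‖S.read i (dfdcf S.J f) (S.at_.chart i x)‖ := by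
    intro i hi
    obtain ⟨hs, hb⟩ := mem_of_rho_ne S hi
    have hy := (S.at_.chart i).map_source hs
    refine ⟨‖gradC (S.at_.chart i) f (S.at_.chart i x)‖, norm_nonneg _, ?_,
      norm_gradC_sq_le S.isJ hf (S.at_.mem_maximal i) hy (abs_readJ_le S i
        (closedBall_subset_closedBall (by norm_num) (ball_subset_closedBall hb)))⟩
    rw [Setup.read, readC_wedgeDF hf α (S.at_.mem_maximal i) hy]
    exact (norm_wedge11_le _ _).trans
      (mul_le_mul_of_nonneg_left (hR i _ (ball_subset_closedBall hb)) (by positivity))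
  have hN : 0 ≤ S.nrm (dfdcf S.J f) x :=
    Finset.sum_nonneg fun i _ => mul_nonneg (S.at_.rho_nonneg i x) (norm_nonneg _)
  constructor
  · set n := S.nrm (wedgeDF f α) x
    have h := nrm_le_nrm_add S (a := 2 * n) (b := 128 * R ^ 2) (d := n ^ 2) (w := wedgeDF f α)
      (η := dfdcf S.J f) (x := x) fun i hi' => by
      obtain ⟨g, hg0, h1, h2⟩ := hi i hi'
      nlinarith [sq_nonneg (n - ‖S.read i (wedgeDF f α) (S.at_.chart i x)‖),
        norm_nonneg (S.read i (wedgeDF f α) (S.at_.chart i x)), sq_nonneg R,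
        mul_le_mul_of_nonneg_left h2 (show (0 : ℝ) ≤ 4 * R ^ 2 by positivity),
        pow_le_pow_left₀ (norm_nonneg (S.read i (wedgeDF f α) (S.at_.chart i x))) h1 2]
    nlinarith [mul_nonneg hR0 hN, mul_nonneg (sq_nonneg R) hN]
  · intro e he
    have h := nrm_le_nrm_add S (a := e) (b := 32 * R * e ^ 2) (d := R) (w := wedgeDF f α)
      (η := dfdcf S.J f) (x := x) fun i hi' => by
      obtain ⟨g, hg0, h1, h2⟩ := hi i hi'
      have h3 : e * ‖S.read i (wedgeDF f α) (S.at_.chart i x)‖ ≤ R * (2 * (e * g)) := by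
        nlinarith [mul_le_mul_of_nonneg_left h1 he]
      nlinarith [mul_nonneg hR0 (sq_nonneg (e * g - 1)),
        mul_le_mul_of_nonneg_left h2 (mul_nonneg hR0 (sq_nonneg e))]
    nlinarith [mul_nonneg (mul_nonneg (sq_nonneg R) (sq_nonneg e)) hN,
      mul_nonneg (mul_nonneg hR0 (sq_nonneg e)) hN, sq_nonneg R]

theorem abs_wedgeDF_apply_le {J : M → E4 → E4} (hJ : IsAlmostComplex J) (f : M → ℝ)
    {α : M → E4 → ℝ} (hα : ∀ x, IsLinearMap ℝ (α x)) (x : M) (v : E4) :
    |wedgeDF f α x v (J x v)| ≤ (dfdcf J f x v (J x v) + aac J α x v (J x v)) / 2 := by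
  have hn : α x (-v) = -α x v := by simpa using (hα x).map_smul (-1 : ℝ) v
  simp only [wedgeDF, dfdcf, aac, hJ.2.1, dFn_neg_arg, hn]
  rw [abs_le]
  constructor <;>
    nlinarith [sq_nonneg (dFn f x v - α x (J x v)), sq_nonneg (dFn f x v + α x (J x v)),
      sq_nonneg (dFn f x (J x v) - α x v), sq_nonneg (dFn f x (J x v) + α x v)]

theorem exists_aac_le (S : Setup M) {α : M → E4 → ℝ} (hα : IsOneForm α) :
    ∃ C, 0 ≤ C ∧ ∀ x v, aac S.J α x v (S.J x v) ≤ C * S.F.1 x v (S.J x v) := by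
  have haa : IsAltField (aac S.J α) := by
    refine ⟨fun x u => ⟨fun a b => ?_, fun r a => ?_⟩, fun x u v => ?_⟩
    · simp only [aac, (S.isJ.1 x).map_add, (hα.1 x).map_add]; ring
    · simp only [aac, (S.isJ.1 x).map_smul, (hα.1 x).map_smul, smul_eq_mul]; ring
    · simp only [aac]; ring
  obtain ⟨R, hR0, hR⟩ := exists_read1_bound S hα
  have hsub : ∀ i, closedBall (0 : E4) 1 ⊆ (S.at_.chart i).target := fun i =>
    (closedBall_subset_closedBall (by norm_num)).trans (S.at_.ball_subset i)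
  choose C hC0 hC using fun i => Dual.exists_chart_bound (F := S.F.1) (S.at_.mem_maximal i) S.isJ.1
    (isCompact_closedBall (0 : E4) 1) (hsub i)
    (fun p a => ((contDiffOn_readJ S.isJ (S.at_.mem_maximal i) p a).continuousOn.mono (hsub i)))
    S.F.2.isAltField ((S.F.2.contDiffOn_readC (S.at_.mem_maximal i)).continuousOn.mono (hsub i))
    S.F_pos
  refine ⟨(∑ i, C i) * (16 * R ^ 2), mul_nonneg (Finset.sum_nonneg fun i _ => hC0 i)
    (by positivity), fun x v => ?_⟩
  obtain ⟨i, hi⟩ := exists_rho_ne S x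
  obtain ⟨hs, hb⟩ := mem_of_rho_ne S hi
  set y := S.at_.chart i x
  have hb' : y ∈ closedBall (0 : E4) 1 := ball_subset_closedBall hb
  have hu : ∀ q, |α ((S.at_.chart i).symm y) (S.J ((S.at_.chart i).symm y)
      (dInv (S.at_.chart i) y (ev4 q)))| ≤ 8 * R := by
    intro q
    rw [J_dInv S.isJ (S.at_.mem_maximal i) (hsub i hb'), alpha_dInv_eq_sum hα.1]
    refine (Finset.abs_sum_le_sum_abs _ _).trans ((Finset.sum_le_sum fun p _ => ?_).trans
      (le_of_eq (show ∑ _p : Fin 4, 2 * R = 8 * R by simp; ring)))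
    rw [abs_mul]
    refine mul_le_mul ?_ ((norm_le_pi_norm _ p).trans (hR i y hb')) (abs_nonneg _) two_pos.le
    simpa [Matrix.mulVec, dotProduct, ev4_coord] using
      abs_readJ_le S i (closedBall_subset_closedBall (by norm_num) hb') p q
  have hB : ‖readC (S.at_.chart i) (aac S.J α) y‖ ≤ 16 * R ^ 2 := by
    refine (pi_norm_le_iff_of_nonneg (by positivity)).2 fun a =>
      (pi_norm_le_iff_of_nonneg (by positivity)).2 fun b => ?_
    have hr : ∀ q, |α ((S.at_.chart i).symm y) (dInv (S.at_.chart i) y (ev4 q))| ≤ R := fun q =>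
      (norm_le_pi_norm (read1 (S.at_.chart i) α y) q).trans (hR i y hb')
    simp only [readC, aac, Real.norm_eq_abs]
    refine (abs_sub _ _).trans ?_
    rw [abs_mul, abs_mul]
    nlinarith [mul_le_mul (hu a) (hr b) (abs_nonneg _) (by positivity : (0 : ℝ) ≤ 8 * R),
      mul_le_mul (hu b) (hr a) (abs_nonneg _) (by positivity : (0 : ℝ) ≤ 8 * R)]
  have h := hC i (aac S.J α) haa y hb' _ hB v
  simp only [y, (S.at_.chart i).left_inv hs] at h
  refine ((le_abs_self _).trans h).trans ?_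
  refine mul_le_mul_of_nonneg_right (mul_le_mul_of_nonneg_right
    (Finset.single_le_sum (fun j _ => hC0 j) (Finset.mem_univ i)) (by positivity)) ?_
  rcases eq_or_ne v 0 with rfl | hv
  · simp [(S.F.2.1 x 0).map_zero, (S.isJ.1 x).map_zero]
  · exact (S.F_pos x v hv).le

/-- `f w + df ∧ α` is exact when `w = dα` -/
theorem isExactForm_smul_add {w : M → E4 → E4 → ℝ} {α : M → E4 → ℝ} (hα : IsOneForm α)
    (hw : ∀ x0 : M, ∀ y ∈ (extChartAt (𝓡 4) x0).target, ∀ u v : E4,
      formInChart w x0 y u v =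
        fderiv ℝ (fun z => α ((extChartAt (𝓡 4) x0).symm z) (fromChart x0 z v)) y u -
          fderiv ℝ (fun z => α ((extChartAt (𝓡 4) x0).symm z) (fromChart x0 z u)) y v)
    {f : M → ℝ} (hf : IsSmoothFn f) : IsExactForm (smulFn f w + wedgeDF f α) := by
  refine ⟨fun x v => f x * α x v, ⟨fun x => ⟨fun a b => ?_, fun r a => ?_⟩, fun x0 v => ?_⟩, ?_⟩
  · simp only [(hα.1 x).map_add]; ring
  · simp only [(hα.1 x).map_smul, smul_eq_mul]; ring
  · exact (hf x0).mul (hα.2 x0 v)
  intro x0 y hy u v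
  have hn := (isOpen_extChartAt_target (I := 𝓡 4) x0).mem_nhds hy
  have hg : DifferentiableAt ℝ (fun z => f ((extChartAt (𝓡 4) x0).symm z)) y :=
    ((hf x0).contDiffAt hn).differentiableAt (by decide)
  have ha : ∀ q, DifferentiableAt ℝ
      (fun z => α ((extChartAt (𝓡 4) x0).symm z) (fromChart x0 z q)) y := fun q =>
    ((hα.2 x0 q).contDiffAt hn).differentiableAt (by decide)
  have hd : ∀ q, dFn f ((extChartAt (𝓡 4) x0).symm y) (fromChart x0 y q) =
      fderiv ℝ (fun z => f ((extChartAt (𝓡 4) x0).symm z)) y q := fun q =>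
    dFn_dInv hf (isChart_chartAt x0) (extChartAt_target_eq (M := M) x0 ▸ hy) q
  rw [fderiv_fun_mul hg (ha v), fderiv_fun_mul hg (ha u)]
  have h0 := hw x0 y hy u v
  simp only [formInChart] at h0
  simp only [formInChart, Pi.add_apply, smulFn, wedgeDF, add_apply, smul_apply, smul_eq_mul,
    ← hd, h0]
  ring

theorem dFn_comp {g : ℝ → ℝ} {g' : ℝ} {f : M → ℝ} (hg : ContDiff ℝ ∞ g) (hf : IsSmoothFn f)
    {x : M} (hg' : HasDerivAt g g' (f x)) (v : E4) :
    dFn (fun y => g (f y)) x v = g' * dFn f x v := by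
  have hx := mem_chart_source E4 x
  rw [dFn_eq_fderiv (hf.comp hg) (isChart_chartAt x) hx, dFn_eq_fderiv hf (isChart_chartAt x) hx]
  set c := chartAt E4 x
  have h1 : HasFDerivAt (fun y => f (c.symm y)) (fderiv ℝ (fun y => f (c.symm y)) (c x)) (c x) :=
    ((hf.contDiffAt (isChart_chartAt x) (c.map_source hx)).differentiableAt
      (by decide)).hasFDerivAt
  rw [← c.left_inv hx] at hg'
  have h2 : HasFDerivAt (fun y => g (f (c.symm y))) _ (c x) := hg'.comp_hasFDerivAt (c x) h1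
  rw [h2.fderiv]
  rfl

end Vale.Agent.P204.Full.Step5
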