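import Vale.Agent.P204.Full.End.Tools
import Vale.Agent.P204.Full.Cut.Point
import Vale.Agent.P204.Full.Dual.Spec

/-!
P204, step 5: bounds of the positive functional on smoothed forms (helper76).
-/

namespace Vale.Agent.P204.Full.Step5

open MeasureTheory Set Filter Topology
open scoped Manifold ContDiff

universe u

variable {M : Type u} [TopologicalSpace M] [CompactSpace M] [ChartedSpace E4 M]
  [IsManifold (𝓡 4) ∞ M] [MeasurableSpace M] [BorelSpace M]

/-- the bounds on `T ∘ Rt e` used by the cut -/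
structure Bounds {S : Setup M} (O : Obstruction S) (Rt : ℝ → Form M →ₗ[ℝ] Form M) (D : ℝ) :
    Prop where
  nonneg : 0 ≤ D
  sup : ∀ e : ℝ, 0 < e → e ≤ 1 → ∀ (w : Form M) (B : ℝ), (∀ x, S.nrm w.1 x ≤ B) →
    |O.T (Rt e w)| ≤ D * B
  inv_sup : ∀ e : ℝ, 0 < e → e ≤ 1 → ∀ w : Form M, p11 S.J w.1 = w.1 → NonnegJ S.J w.1 →
    ∀ B : ℝ, (∀ x, S.nrm w.1 x ≤ B) → -(D * e ^ 2 * B) ≤ O.T (Rt e w)
  inv_int : ∀ e : ℝ, 0 < e → e ≤ 1 → ∀ w : Form M, p11 S.J w.1 = w.1 → NonnegJ S.J w.1 →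
    -(D * ∫ x, S.nrm w.1 x ∂S.vol) ≤ O.T (Rt e w)
  anti_sup : ∀ e : ℝ, 0 < e → e ≤ 1 → ∀ w : Form M, pm S.J w.1 = w.1 →
    ∀ B : ℝ, (∀ x, S.nrm w.1 x ≤ B) → |O.T (Rt e w)| ≤ D * e * B
  anti_int : ∀ e : ℝ, 0 < e → e ≤ 1 → ∀ w : Form M, pm S.J w.1 = w.1 →
    ∀ (g : M → ℝ) (a : ℝ), Continuous g → (∀ x, 0 ≤ g x) → 0 ≤ a →
      (∀ x, e * S.nrm w.1 x ≤ a * (e ^ 2 * g x + 1)) →
        |O.T (Rt e w)| ≤ D * a * (∫ x, g x ∂S.vol + 1)

omit [IsManifold (𝓡 4) ∞ M] in
theorem exists_bounds {S : Setup M} (T : EndTools S) (O : Obstruction S) (hden : Density O)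
    {Rt : ℝ → Form M →ₗ[ℝ] Form M} (hop : Mollif S Rt) : ∃ D, Bounds O Rt D := by
  have := T.finite
  obtain ⟨C, K0, K1, K2, hC, hK0, hK1, hK2, hk⟩ := exists_kernel_bounds hop
  have hL : IsPosCur S O.T := ⟨O.T_inv, O.T_nonneg⟩
  have hB : ∃ B, ∀ w : Form M, |O.T w| ≤ B * S.cN 0 w.1 := ⟨O.bound, O.T_bound⟩
  have hi : ∀ {f : M → ℝ}, Continuous f → Integrable f S.vol := fun {f} hf =>
    hf.integrable_of_hasCompactSupport (HasCompactSupport.of_compactSpace _)
  have hmass : ∀ K, 0 < K → ∃ B, 0 ≤ B ∧ ∀ e : ℝ, 0 < e → e ≤ 1 →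
      ∫ x, dens S O.T (K * e) x ∂S.vol ≤ B := fun K hK => by
    obtain ⟨B, hB0, h⟩ := T.dens_mass K hK
    exact ⟨B, hB0, fun e he he1 => (h O.T hL hB e he he1).trans_eq (by rw [O.T_unit, mul_one])⟩
  obtain ⟨B0, hB0, hm0⟩ := hmass K0 hK0
  obtain ⟨B1, hB1, hm1⟩ := hmass K1 hK1
  obtain ⟨B2, hB2, hm2⟩ := hmass K2 hK2
  have hsup : ∀ K, 0 < K → ∃ P, 0 ≤ P ∧ ∀ e : ℝ, 0 < e → e ≤ 1 → ∀ x,
      e ^ 2 * dens S O.T (K * e) x ≤ P := fun K hK => by
    obtain ⟨P, hP⟩ := hden K hK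
    refine ⟨|P| / K ^ 4, by positivity, fun e he he1 x => ?_⟩
    rw [dens, mul_pow, ← mul_div_assoc, div_le_div_iff₀ (by positivity) (by positivity)]
    have h1 := mul_le_mul_of_nonneg_left ((hP e he he1 x).trans
      (mul_le_mul_of_nonneg_right (le_abs_self P) (by positivity)))
        (show (0 : ℝ) ≤ e ^ 2 * K ^ 4 by positivity)
    linarith
  obtain ⟨P1, hP1, hd1⟩ := hsup K1 hK1
  obtain ⟨P2, hP2, hd2⟩ := hsup K2 hK2
  have mk : ∀ K, 0 < K → ∀ e : ℝ, 0 < e →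
      MajBound S O.T (K * e) (dens S O.T (K * e)) ∧ Continuous (dens S O.T (K * e)) ∧
        ∀ x, 0 ≤ dens S O.T (K * e) x := fun K hK e he =>
    ⟨T.maj_bound _ hL hB _ (by positivity), T.dens_cont _ hB _ (by positivity),
      fun x => T.dens_nonneg hL (by positivity) x⟩
  have hint : ∀ K, 0 < K → ∀ e : ℝ, 0 < e → ∀ (w : Form M) (B : ℝ), (∀ x, S.nrm w.1 x ≤ B) →
      ∫ x, S.nrm w.1 x * dens S O.T (K * e) x ∂S.vol ≤
        B * ∫ x, dens S O.T (K * e) x ∂S.vol := fun K hK e he w B hw => by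
    obtain ⟨-, hc, hn⟩ := mk K hK e he
    rw [← integral_const_mul]
    exact integral_mono (hi ((T.nrm_cont w).mul hc)) (hi (continuous_const.mul hc)) fun x =>
      mul_le_mul_of_nonneg_right (hw x) (hn x)
  have hM : Nonempty M := by
    by_contra h
    have h1 : O.T S.F = 0 := by
      have e : S.F = 0 := Subtype.ext (funext fun x => absurd ⟨x⟩ h)
      rw [e, map_zero]
    linarith [O.T_unit]
  have hB' : ∀ (w : Form M) (B : ℝ), (∀ x, S.nrm w.1 x ≤ B) → 0 ≤ B := fun w B hw =>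
    (T.nrm_nonneg w hM.some).trans (hw _)
  refine ⟨C * (B0 + B1 + B2 + P1 + P2 + 1), ⟨by positivity, ?_, ?_, ?_, ?_, ?_⟩⟩
  · intro e he he1 w B hw
    refine ((hk O.T hL T.P T.hP e he he1 _ w).1 (mk K0 hK0 e he).1).trans ?_
    rw [mul_assoc]
    refine mul_le_mul_of_nonneg_left ((hint K0 hK0 e he w B hw).trans ?_) hC.le
    rw [mul_comm _ B]
    exact mul_le_mul_of_nonneg_left ((hm0 e he he1).trans (by linarith)) (hB' w B hw)
  · intro e he he1 w hw hw0 B hb
    refine le_trans (neg_le_neg ?_) ((hk O.T hL T.P T.hP e he he1 _ w).2.2 (mk K2 hK2 e he).1 hw hw0)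
    calc C * e ^ 2 * ∫ x, S.nrm w.1 x * dens S O.T (K2 * e) x ∂S.vol
        ≤ C * e ^ 2 * (B * (B0 + B1 + B2 + P1 + P2 + 1)) :=
          mul_le_mul_of_nonneg_left ((hint K2 hK2 e he w B hb).trans
            (mul_le_mul_of_nonneg_left ((hm2 e he he1).trans (by linarith)) (hB' w B hb)))
            (by positivity)
      _ = _ := by ring
  · intro e he he1 w hw hw0
    refine le_trans (neg_le_neg ?_) ((hk O.T hL T.P T.hP e he he1 _ w).2.2 (mk K2 hK2 e he).1 hw hw0)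
    rw [mul_assoc C, mul_assoc C, ← integral_const_mul]
    refine mul_le_mul_of_nonneg_left ?_ hC.le
    rw [← integral_const_mul]
    refine integral_mono (hi (continuous_const.mul ((T.nrm_cont w).mul (mk K2 hK2 e he).2.1)))
      (hi (continuous_const.mul (T.nrm_cont w))) fun x => ?_
    have h1 := mul_le_mul_of_nonneg_right ((hd2 e he he1 x).trans
      (show P2 ≤ B0 + B1 + B2 + P1 + P2 + 1 by linarith)) (T.nrm_nonneg w x)
    linarith
  · intro e he he1 w hw B hb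
    refine ((hk O.T hL T.P T.hP e he he1 _ w).2.1 (mk K1 hK1 e he).1 hw).trans ?_
    calc C * e * ∫ x, S.nrm w.1 x * dens S O.T (K1 * e) x ∂S.vol
        ≤ C * e * (B * (B0 + B1 + B2 + P1 + P2 + 1)) :=
          mul_le_mul_of_nonneg_left ((hint K1 hK1 e he w B hb).trans
            (mul_le_mul_of_nonneg_left ((hm1 e he he1).trans (by linarith)) (hB' w B hb)))
            (by positivity)
      _ = _ := by ring
  · intro e he he1 w hw g a hg hg0 ha hb
    obtain ⟨hmaj, hc, hn⟩ := mk K1 hK1 e he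
    refine ((hk O.T hL T.P T.hP e he he1 _ w).2.1 hmaj hw).trans ?_
    rw [mul_assoc C, ← integral_const_mul]
    rw [mul_assoc C, mul_assoc C]
    refine mul_le_mul_of_nonneg_left ?_ hC.le
    calc ∫ x, e * (S.nrm w.1 x * dens S O.T (K1 * e) x) ∂S.vol
        ≤ ∫ x, (a * P1 * g x + a * dens S O.T (K1 * e) x) ∂S.vol := by
          refine integral_mono (hi (continuous_const.mul ((T.nrm_cont w).mul hc)))
            (hi ((continuous_const.mul hg).add (continuous_const.mul hc))) fun x => ?_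
          have h1 := mul_le_mul_of_nonneg_right (hb x) (hn x)
          have h2 := mul_le_mul_of_nonneg_left (hd1 e he he1 x) (mul_nonneg ha (hg0 x))
          linarith
      _ = a * P1 * ∫ x, g x ∂S.vol + a * ∫ x, dens S O.T (K1 * e) x ∂S.vol := by
          rw [integral_add (hi (f := fun x => a * P1 * g x) (continuous_const.mul hg))
            (hi (f := fun x => a * dens S O.T (K1 * e) x) (continuous_const.mul hc)),
            integral_const_mul, integral_const_mul]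
      _ ≤ _ := by
          have hg1 : 0 ≤ ∫ x, g x ∂S.vol := integral_nonneg hg0
          have h3 := mul_le_mul_of_nonneg_left (hm1 e he he1) ha
          nlinarith [mul_nonneg (mul_nonneg ha hg1)
            (show 0 ≤ B0 + B1 + B2 + P2 + 1 by linarith),
            mul_nonneg ha (show 0 ≤ B0 + B2 + P1 + P2 + 1 by linarith)]

end Vale.Agent.P204.Full.Step5
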