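import Vale.Agent.P204.Full.Cut.Family
import Vale.Agent.P204.Full.End.Facts
import Vale.Agent.P204.Full.Global.Vol

/-!
P204, step 5: the part of `T` below height `k + 1` is diffuse (helper76).
-/

namespace Vale.Agent.P204.Full.Step5

open MeasureTheory Set Filter Topology
open scoped Manifold ContDiff

set_option linter.unusedSectionVars false

universe u

variable {M : Type u} [TopologicalSpace M] [CompactSpace M] [ChartedSpace E4 M]
  [IsManifold (𝓡 4) ∞ M] [MeasurableSpace M] [BorelSpace M]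
  {S : Setup M} {O : Obstruction S} {Rt : ℝ → Form M →ₗ[ℝ] Form M} {D : ℝ}

theorem bump_nonneg (S : Setup M) (r : ℝ) (x y : M) : 0 ≤ S.bump r x y :=
  Real.smoothTransition.nonneg _

theorem bump_mono (S : Setup M) {r s : ℝ} (hr : 0 < r) (hrs : r ≤ s) (x y : M) :
    S.bump r x y ≤ S.bump s x y := by
  refine Real.smoothTransition.monotone (sub_le_sub_left ?_ _)
  gcongr

/-- the cut-off kernel as a continuous family of functions -/
noncomputable def bumpFam (S : Setup M) (r : ℝ) : C(M, C(M, ℝ)) :=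
  (ContinuousMap.mk _ (S.continuous_bump r)).curry

theorem abs_bump_sub_le (S : Setup M) (r : ℝ) (x0 x y : M) :
    |S.bump r x y - S.bump r x0 y| ≤ ‖bumpFam S r x - bumpFam S r x0‖ :=
  (bumpFam S r x - bumpFam S r x0).norm_coe_le_norm y

theorem tendsto_bumpFam (S : Setup M) (r : ℝ) (C : ℝ) (x0 : M) :
    Tendsto (fun x => C * ‖bumpFam S r x - bumpFam S r x0‖) (𝓝 x0) (𝓝 0) := by
  simpa using (tendsto_iff_norm_sub_tendsto_zero.1
    ((bumpFam S r).continuous.tendsto x0)).const_mul C

theorem continuous_maj (S : Setup M) [IsFiniteMeasure S.vol] (r : ℝ) {g : M → ℝ}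
    (hg : Continuous g) : Continuous (S.maj r g) := by
  have hb : ∀ x, Integrable (fun y => S.bump r x y * g y) S.vol := fun x =>
    ((((S.continuous_bump r).comp (Continuous.prodMk_right x)).mul hg).integrable_of_hasCompactSupport
      (HasCompactSupport.of_compactSpace _) : _)
  have hga : Integrable (fun y => |g y|) S.vol :=
    hg.abs.integrable_of_hasCompactSupport (HasCompactSupport.of_compactSpace _)
  suffices h : Continuous fun x => ∫ y, S.bump r x y * g y ∂S.vol by exact h.div_const (r ^ 4)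
  have key : ∀ x0 x, ‖(∫ y, S.bump r x y * g y ∂S.vol) - ∫ y, S.bump r x0 y * g y ∂S.vol‖ ≤
      (∫ y, |g y| ∂S.vol) * ‖bumpFam S r x - bumpFam S r x0‖ := fun x0 x => by
    rw [← integral_sub (hb x) (hb x0), ← integral_mul_const]
    refine norm_integral_le_of_norm_le (hga.mul_const _) (Eventually.of_forall fun y => ?_)
    rw [Real.norm_eq_abs, ← sub_mul, abs_mul, mul_comm]
    exact mul_le_mul_of_nonneg_left (abs_bump_sub_le S r x0 x y) (abs_nonneg _)
  exact continuous_iff_continuousAt.2 fun x0 => tendsto_iff_norm_sub_tendsto_zero.2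
    (squeeze_zero (fun _ => norm_nonneg _) (key x0) (tendsto_bumpFam S r _ x0))

theorem p11_bumpForm (S : Setup M) (r : ℝ) (x : M) :
    p11 S.J (bumpForm S r x).1 = (bumpForm S r x).1 :=
  p11_scalar_mul_F S _ (S.bump r x) fun _ _ _ => bumpForm_apply S r x _ _ _

/-- density at scale `r` of the functional cut below height `k + 1`, at smoothing scale `e` -/
noncomputable def lowDens (P : PotData O Rt) (k : ℕ) (r : ℝ) (e : ℝ) (x : M) : ℝ :=
  O.T (Rt e (fmul _ (P.smooth_low k e) (bumpForm S r x))) / r ^ 4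

theorem abs_lowDens_sub (hD : Bounds O Rt D) (P : PotData O Rt) (k : ℕ) {r : ℝ} (hr : 0 < r)
    {e : ℝ} (he : 0 < e) (he1 : e ≤ 1) (x0 x : M) :
    |lowDens P k r e x - lowDens P k r e x0| ≤
      D * S.cN 0 S.F.1 / r ^ 4 * ‖bumpFam S r x - bumpFam S r x0‖ := by
  rw [lowDens, lowDens, ← sub_div, ← map_sub, ← map_sub, ← map_sub, abs_div,
    abs_of_pos (show (0 : ℝ) < r ^ 4 by positivity), div_mul_eq_mul_div, mul_assoc D]
  refine (div_le_div_iff_of_pos_right (by positivity)).2 (hD.sup e he he1 _ _ fun y => ?_)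
  have h : (bumpForm S r x - bumpForm S r x0).1 =
      smulFn (fun z => S.bump r x z - S.bump r x0 z) S.F.1 := by
    funext z u v
    simp only [Submodule.coe_sub, Pi.sub_apply, bumpForm_apply, smulFn]
    ring
  show S.nrm (smulFn (fun x => 1 - P.top k e x) (bumpForm S r x - bumpForm S r x0).1) y ≤ _
  refine nrm_smulFn_le S (P.abs_low_le k e) (fun z => ?_) y
  rw [h, nrm_smulFn, mul_comm]
  exact mul_le_mul (S.nrm_le_cN 0 S.F.2 z) (abs_bump_sub_le S r x0 x z) (abs_nonneg _)
    (S.cN_nonneg 0 _)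

theorem abs_lowDens_le (P : PotData O Rt) (k : ℕ) {r : ℝ} (hr : 0 < r) {e : ℝ} (he : 0 < e)
    (he1 : e ≤ 1) (x : M) :
    |lowDens P k r e x| ≤
      S.maj r (fun y => (1 - P.top k e y) * |wg S.F.1 (P.TR e).1 S.F.1 y|) x := by
  rw [lowDens, abs_div, abs_of_pos (show (0 : ℝ) < r ^ 4 by positivity), Setup.maj]
  refine (div_le_div_iff_of_pos_right (by positivity)).2 ?_
  rw [← P.rep e he he1, Setup.pair]
  refine abs_integral_le_integral_abs.trans (le_of_eq (integral_congr_ae
    (Eventually.of_forall fun y => ?_)))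
  have h1 : wg S.F.1 (P.TR e).1 (fmul _ (P.smooth_low k e) (bumpForm S r x)).1 y =
      (1 - P.top k e y) * (S.bump r x y * wg S.F.1 (P.TR e).1 S.F.1 y) := by
    rw [wg_comm, fmul_coe, wg_smulFn_left, bumpForm, fmul_coe, wg_smulFn_left,
      wg_comm S.F.1 S.F.1]
  show |wg S.F.1 (P.TR e).1 (fmul _ (P.smooth_low k e) (bumpForm S r x)).1 y| =
    S.bump r x y * ((1 - P.top k e y) * |wg S.F.1 (P.TR e).1 S.F.1 y|)
  rw [h1, abs_mul, abs_mul, abs_of_nonneg (bump_nonneg S r x y),
    abs_of_nonneg (sub_nonneg.2 (show P.top k e y ≤ 1 from high_le_one k _))]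
  ring

/-- `diffuse` for the part cut at height `k + 1` -/
theorem diffuse_part (T : EndTools S) (hop : Mollif S Rt) (hD : Bounds O Rt D) (P : PotData O Rt)
    {l : Ultrafilter ℝ} (hl : (l : Filter ℝ) ≤ 𝓝[>] 0) (k : ℕ) {K : ℝ} (hK : 0 < K) :
    Tendsto (fun δ : ℝ => δ ^ 2 * ∫ x,
      (ballVal S (fun w => O.T w - part hD P hl k w) (K * δ) x / δ ^ 4) ^ 2 ∂S.vol)
      (𝓝[>] 0) (𝓝 0) := by
  have := T.finite
  have hi : ∀ {f : M → ℝ}, Continuous f → Integrable f S.vol := fun {f} hf =>
    hf.integrable_of_hasCompactSupport (HasCompactSupport.of_compactSpace _)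
  let g : ℝ → M → ℝ := fun r x =>
    (O.T (bumpForm S r x) - part hD P hl k (bumpForm S r x)) / r ^ 4
  have hlim : ∀ r x, Tendsto (fun e => lowDens P k r e x) (l : Filter ℝ) (𝓝 (g r x)) := fun r x =>
    (tendsto_rest hD hop P hl k (p11_bumpForm S r x)).div_const _
  have hu : ∀ r, 0 < r → TendstoUniformly (fun e x => lowDens P k r e x) (g r) (l : Filter ℝ) ∧
      Continuous (g r) := fun r hr =>
    tendstoUniformly_of_modulus
      (fun x0 x => D * S.cN 0 S.F.1 / r ^ 4 * ‖bumpFam S r x - bumpFam S r x0‖)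
      (fun x0 => tendsto_bumpFam S r _ x0)
      ((eventually_small l hl one_pos).mono fun e he x0 x => abs_lowDens_sub hD P k hr he.1 he.2 x0 x)
      (hlim r)
  have hcont : ∀ r, 0 < r → ∀ᶠ e in (l : Filter ℝ), Continuous fun x => lowDens P k r e x :=
    fun r hr => (eventually_small l hl one_pos).mono fun e he => continuous_iff_continuousAt.2
      fun x0 => tendsto_iff_norm_sub_tendsto_zero.2 (squeeze_zero (fun _ => norm_nonneg _)
        (fun x => (Real.norm_eq_abs _).le.trans (abs_lowDens_sub hD P k hr he.1 he.2 x0 x))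
        (tendsto_bumpFam S r _ x0))
  let a : ℕ → ℝ := fun j => ((1 / 2 : ℝ) ^ j) ^ 2 * ∫ x, g (K * (1 / 2 : ℝ) ^ j) x ^ 2 ∂S.vol
  have hsum : ∀ J, ∑ j ∈ Finset.range J, a j ≤ P.CK K * Real.exp (2 * (k + 1)) := by
    intro J
    have ht : Tendsto (fun e => ∑ j ∈ Finset.range J, ((1 / 2 : ℝ) ^ j) ^ 2 *
        ∫ x, lowDens P k (K * (1 / 2 : ℝ) ^ j) e x ^ 2 ∂S.vol) (l : Filter ℝ)
        (𝓝 (∑ j ∈ Finset.range J, a j)) := by
      refine tendsto_finsetSum _ fun j _ => Tendsto.const_mul _ ?_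
      exact tendsto_integral_sq S.vol (hu _ (by positivity)).1 (hu _ (by positivity)).2
        (hcont _ (by positivity))
    refine le_of_tendsto ht ((eventually_small l hl (show (0 : ℝ) < (1 / 2) ^ J by positivity)).mono
      fun e he => ?_)
    have he1 : e ≤ 1 := he.2.trans (pow_le_one₀ (by norm_num) (by norm_num))
    refine le_trans (Finset.sum_le_sum fun j _ => ?_) (P.energy e he.1 he1 (fun x => 1 - P.top k e x)
      (P.smooth_low k e) (fun x => ⟨sub_nonneg.2 (high_le_one k _), sub_le_self _ (high_nonneg k _)⟩)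
      (2 * (k + 1)) (fun x hx => le_of_high_ne_one fun h => hx (sub_eq_zero.2 h.symm)) K hK J he.2)
    refine mul_le_mul_of_nonneg_left ?_ (by positivity)
    refine integral_mono_of_nonneg (Eventually.of_forall fun x => sq_nonneg _)
      (hi ((continuous_maj S _ ((P.smooth_low k e).continuous.mul
        (S.continuous_wg (P.TR e).2 S.F.2).abs)).pow 2)) (Eventually.of_forall fun x => ?_)
    calc lowDens P k (K * (1 / 2 : ℝ) ^ j) e x ^ 2
        = |lowDens P k (K * (1 / 2 : ℝ) ^ j) e x| ^ 2 := (sq_abs _).symm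
      _ ≤ _ := pow_le_pow_left₀ (abs_nonneg _)
          (abs_lowDens_le P k (by positivity) he.1 he1 x) 2
  have ha0 : ∀ j, 0 ≤ a j := fun j =>
    mul_nonneg (by positivity) (integral_nonneg fun x => sq_nonneg _)
  refine tendsto_of_dyadic (t := a) (C := 256 * K ^ 8) (tendsto_zero_of_sum_le ha0 hsum)
    (fun δ _ => mul_nonneg (sq_nonneg _) (integral_nonneg fun x => sq_nonneg _))
    fun j δ h1 h2 => ?_
  set s : ℝ := (1 / 2 : ℝ) ^ j with hs
  have hs0 : 0 < s := by positivity
  have h1' : s / 2 < δ := by rw [hs]; rw [pow_succ] at h1; linarith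
  have hδ : 0 < δ := (half_pos hs0).trans h1'
  have hpos : ∀ w : Form M, p11 S.J w.1 = w.1 → NonnegJ S.J w.1 →
      0 ≤ O.T w - part hD P hl k w := fun w hw hw0 =>
    sub_nonneg.2 (part_le hD hop P hl k hw hw0)
  have hbound : ∀ x, 0 ≤ ballVal S (fun w => O.T w - part hD P hl k w) (K * δ) x ∧
      ballVal S (fun w => O.T w - part hD P hl k w) (K * δ) x ≤ g (K * s) x * (K * s) ^ 4 := by
    intro x
    rw [ballVal_eq]
    simp only [g, div_mul_cancel₀ _ (show (K * s) ^ 4 ≠ 0 by positivity)]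
    refine ⟨hpos _ (p11_bumpForm S _ x) (nonnegJ_smulFn S (bump_nonneg S _ x) (nonneg_F S)), ?_⟩
    have h := hpos (bumpForm S (K * s) x - bumpForm S (K * δ) x) ?_ fun y v => ?_
    · simp only [map_sub] at h
      linarith
    · exact p11_scalar_mul_F S _ (fun y => S.bump (K * s) x y - S.bump (K * δ) x y) fun y u v => by
        simp only [Submodule.coe_sub, Pi.sub_apply, bumpForm_apply]; ring
    · simp only [Submodule.coe_sub, Pi.sub_apply, bumpForm_apply, ← sub_mul]
      exact mul_nonneg (sub_nonneg.2 (bump_mono S (by positivity) (by gcongr) x y))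
        (nonneg_F S y v)
  calc δ ^ 2 * ∫ x, (ballVal S (fun w => O.T w - part hD P hl k w) (K * δ) x / δ ^ 4) ^ 2 ∂S.vol
      ≤ s ^ 2 * ∫ x, (16 * K ^ 4) ^ 2 * g (K * s) x ^ 2 ∂S.vol := by
        refine mul_le_mul (pow_le_pow_left₀ hδ.le h2 2) ?_
          (integral_nonneg fun x => sq_nonneg _) (by positivity)
        refine integral_mono_of_nonneg (Eventually.of_forall fun x => sq_nonneg _)
          (hi (continuous_const.mul ((hu _ (by positivity)).2.pow 2)))
          (Eventually.of_forall fun x => ?_)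
        show _ ≤ (16 * K ^ 4) ^ 2 * g (K * s) x ^ 2
        rw [← mul_pow]
        refine pow_le_pow_left₀ (div_nonneg (hbound x).1 (by positivity)) ?_ 2
        rw [div_le_iff₀ (by positivity)]
        refine (hbound x).2.trans ?_
        have hg0 : 0 ≤ g (K * s) x := by
          refine nonneg_of_mul_nonneg_left ((hbound x).1.trans (hbound x).2) (by positivity)
        have h16 : s ^ 4 ≤ 16 * δ ^ 4 := by
          have := pow_le_pow_left₀ (half_pos hs0).le h1'.le 4
          linarith [show (s / 2) ^ 4 = s ^ 4 / 16 by ring]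
        rw [mul_pow]
        calc g (K * s) x * (K ^ 4 * s ^ 4) ≤ g (K * s) x * (K ^ 4 * (16 * δ ^ 4)) := by gcongr
          _ = _ := by ring
    _ = 256 * K ^ 8 * a j := by
        rw [integral_const_mul]
        simp only [a, ← hs]
        ring

end Vale.Agent.P204.Full.Step5
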