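import Vale.Agent.P204.Full.Cut.Family
import Vale.Agent.P204.Full.End.Main

/-!
P204, step 5: the cut part of an exact form tends to zero (helper76).
-/

namespace Vale.Agent.P204.Full.Step5

open MeasureTheory Set Filter Topology
open scoped Manifold ContDiff

set_option linter.unusedSectionVars false

universe u

variable {M : Type u} [TopologicalSpace M] [CompactSpace M] [ChartedSpace E4 M]
  [IsManifold (𝓡 4) ∞ M] [MeasurableSpace M] [BorelSpace M]
  {S : Setup M} {O : Obstruction S} {Rt : ℝ → Form M →ₗ[ℝ] Form M} {D : ℝ}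

theorem nrm_sub_le (S : Setup M) (w η : M → E4 → E4 → ℝ) (x : M) :
    S.nrm (w - η) x ≤ S.nrm w x + S.nrm η x := by
  rw [sub_eq_add_neg, ← neg_one_smul ℝ η]
  exact (S.nrm_add_le _ _ x).trans_eq (by rw [S.nrm_smul]; simp)

theorem nrm_comb_le (S : Setup M) (a b c : ℝ) (f g k : M → E4 → E4 → ℝ) (x : M) :
    S.nrm (a • f + b • g + c • k) x ≤ |a| * S.nrm f x + |b| * S.nrm g x + |c| * S.nrm k x := by
  have h1 := S.nrm_add_le (a • f + b • g) (c • k) x
  have h2 := S.nrm_add_le (a • f) (b • g) x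
  simp only [S.nrm_smul] at h1 h2
  linarith

theorem nrm_anti_le (T : EndTools S) (w : Form M) (x : M) :
    S.nrm (w - T.P w).1 x ≤ 34 * S.nrm w.1 x := by
  rw [Submodule.coe_sub, T.hP]
  exact (nrm_sub_le S _ _ x).trans (by linarith [nrm_p11_le S w.2.isAltField x])

variable {α : M → E4 → ℝ}

/-- The gradient term of the cut form. -/
noncomputable def gradTerm (P : PotData O Rt) (k : ℕ) (e : ℝ) (hα : IsOneForm α) : Form M :=
  ⟨wedgeDF (P.top k e) α, isTwoForm_wedgeDF (P.smooth_top k e) hα⟩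

theorem gradTerm_eq (P : PotData O Rt) (k : ℕ) (e : ℝ) (hα : IsOneForm α) :
    (gradTerm P k e hα).1 = smulFn (fun x => high' k (P.h e x)) (wedgeDF (P.h e) α) := by
  funext x a b
  have h1 : ∀ v, dFn (P.top k e) x v = high' k (P.h e x) * dFn (P.h e) x v := fun v =>
    dFn_comp (contDiff_high k) (P.smooth e) (hasDerivAt_high k _) v
  simp only [gradTerm, smulFn, wedgeDF, h1]
  ring

theorem nrm_gradTerm_le (P : PotData O Rt) (k : ℕ) (e : ℝ) (hα : IsOneForm α) {a : ℝ}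
    (ha : ∀ x, |high' k (P.h e x)| ≤ a) (x : M) :
    S.nrm (gradTerm P k e hα).1 x ≤ a * S.nrm (wedgeDF (P.h e) α) x := by
  rw [gradTerm_eq, nrm_smulFn]
  exact mul_le_mul_of_nonneg_right (ha x) (S.nrm_nonneg _ x)

theorem l2_cut_le (T : EndTools S) (P : PotData O Rt) (k : ℕ) {e : ℝ} (he0 : 0 < e) (he1 : e ≤ 1)
    (hα : IsOneForm α) (w : Form M) {Cw C' : ℝ} (hCw0 : 0 ≤ Cw)
    (hC' : ∀ x, |high' k (P.h e x)| ≤ C' * (1 / (k + 1)))
    (hCw : ∀ x, S.nrm (wedgeDF (P.h e) α) x ^ 2 ≤ Cw * S.nrm (dfdcf S.J (P.h e)) x) :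
    S.l2 (fmul (P.top k e) (P.smooth_top k e) w + gradTerm P k e hα).1 ≤
      Real.sqrt (2 * S.cN 0 w.1 ^ 2 * |P.C| + 2 * C' ^ 2 * Cw * |P.C|) *
        (Real.sqrt (k + 1))⁻¹ := by
  have := T.finite
  have hi : ∀ {f : M → ℝ}, Continuous f → Integrable f S.vol := fun {f} hf =>
    hf.integrable_of_hasCompactSupport (HasCompactSupport.of_compactSpace _)
  set B := S.cN 0 w.1
  set u : ℝ := 1 / (k + 1) with hu
  have hu0 : 0 ≤ u := by positivity
  have hu1 : u ≤ 1 := by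
    rw [hu, div_le_one (by positivity)]
    linarith [(Nat.cast_nonneg k : (0 : ℝ) ≤ k)]
  set E := fmul (P.top k e) (P.smooth_top k e) w + gradTerm P k e hα
  have hmc : Continuous (S.nrm (dfdcf S.J (P.h e))) :=
    T.nrm_cont ⟨_, isTwoForm_dfdcf S.isJ (P.smooth e)⟩
  have hu' : (Real.sqrt (k + 1))⁻¹ = Real.sqrt u := by rw [hu, one_div, Real.sqrt_inv]
  rw [Setup.l2, hu', ← Real.sqrt_mul (by positivity)]
  refine Real.sqrt_le_sqrt ?_
  calc ∫ x, S.nrm E.1 x ^ 2 ∂S.vol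
      ≤ ∫ x, (2 * B ^ 2 * u * P.h e x
          + 2 * C' ^ 2 * u * Cw * S.nrm (dfdcf S.J (P.h e)) x) ∂S.vol := by
        refine integral_mono (hi ((T.nrm_cont E).pow 2))
          (hi ((continuous_const.mul (P.smooth e).continuous).add
            (continuous_const.mul hmc))) fun x => ?_
        set t := P.top k e x
        set d := S.nrm (wedgeDF (P.h e) α) x
        have hadd : S.nrm E.1 x ≤ S.nrm (smulFn (P.top k e) w.1) x + S.nrm (gradTerm P k e hα).1 x :=
          S.nrm_add_le _ _ x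
        have ht0 : 0 ≤ t := high_nonneg k _
        have h1 : S.nrm (smulFn (P.top k e) w.1) x ≤ t * B := by
          rw [nrm_smulFn, abs_of_nonneg ht0]
          exact mul_le_mul_of_nonneg_left (S.nrm_le_cN 0 w.2 x) ht0
        have h2 : t ≤ P.h e x * u := (high_le_div (P.nonneg e x)).trans_eq (by rw [hu]; ring)
        have h3 : t ≤ 1 := high_le_one k _
        have h5 : S.nrm E.1 x ^ 2 ≤ 2 * (t * B) ^ 2 + 2 * (C' * u * d) ^ 2 := by
          have h5' : S.nrm E.1 x ≤ t * B + C' * u * d :=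
            hadd.trans (add_le_add h1 (nrm_gradTerm_le P k e hα hC' x))
          nlinarith [S.nrm_nonneg E.1 x, sq_nonneg (t * B - C' * u * d)]
        have h6 : t ^ 2 ≤ P.h e x * u := by nlinarith
        have h7 : u ^ 2 * d ^ 2 ≤ u * (Cw * S.nrm (dfdcf S.J (P.h e)) x) :=
          mul_le_mul (by nlinarith) (hCw x) (sq_nonneg _) hu0
        nlinarith [mul_le_mul_of_nonneg_left h6 (sq_nonneg B),
          mul_le_mul_of_nonneg_left h7 (sq_nonneg C')]
    _ = 2 * B ^ 2 * u * ∫ x, P.h e x ∂S.vol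
        + 2 * C' ^ 2 * u * Cw * ∫ x, S.nrm (dfdcf S.J (P.h e)) x ∂S.vol := by
        rw [integral_add (hi (f := fun x => 2 * B ^ 2 * u * P.h e x)
            (continuous_const.mul (P.smooth e).continuous))
          (hi (f := fun x => 2 * C' ^ 2 * u * Cw * S.nrm (dfdcf S.J (P.h e)) x)
            (continuous_const.mul hmc)), integral_const_mul, integral_const_mul]
    _ ≤ (2 * B ^ 2 * |P.C| + 2 * C' ^ 2 * Cw * |P.C|) * u := by
        have h1 := mul_le_mul_of_nonneg_left ((P.mass e he0 he1).trans (le_abs_self _))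
          (show 0 ≤ 2 * B ^ 2 * u by positivity)
        have h2 := mul_le_mul_of_nonneg_left ((P.grad e he0 he1).trans (le_abs_self _))
          (show 0 ≤ 2 * C' ^ 2 * u * Cw by positivity)
        linarith

theorem inv_term_le (T : EndTools S) (hD : Bounds O Rt D) (P : PotData O Rt) (k : ℕ) {e : ℝ}
    (he0 : 0 < e) (he1 : e ≤ 1) (hα : IsOneForm α) {Cw Ca a : ℝ} (hCw0 : 0 ≤ Cw) (hCa0 : 0 ≤ Ca)
    (ha0 : 0 ≤ a) (hg' : ∀ x, |high' k (P.h e x)| ≤ a)
    (hCw : ∀ x, S.nrm (wedgeDF (P.h e) α) x ≤ Cw * (S.nrm (dfdcf S.J (P.h e)) x + 1))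
    (hCa : ∀ x v, aac S.J α x v (S.J x v) ≤ Ca * S.F.1 x v (S.J x v)) :
    |O.T (Rt e (T.P (gradTerm P k e hα)))| ≤ a * (|P.C| + Ca * (D * S.cN 0 S.F.1) +
      D * (|P.C| + Ca * S.cN 0 S.F.1 * S.vol.real univ +
        33 * Cw * (|P.C| + S.vol.real univ))) := by
  have := T.finite
  have hi : ∀ {f : M → ℝ}, Continuous f → Integrable f S.vol := fun {f} hf =>
    hf.integrable_of_hasCompactSupport (HasCompactSupport.of_compactSpace _)
  set C := |P.C|
  set BF := S.cN 0 S.F.1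
  set V := S.vol.real univ
  set hh := P.h e
  set df : Form M := ⟨dfdcf S.J hh, isTwoForm_dfdcf S.isJ (P.smooth e)⟩
  have hmc : Continuous (S.nrm (dfdcf S.J hh)) := T.nrm_cont df
  set W := gradTerm P k e hα with hWd
  have hPW : (T.P W).1 = p11 S.J W.1 := T.hP W
  have hint_m : ∫ x, S.nrm (dfdcf S.J hh) x ∂S.vol ≤ C :=
    (P.grad e he0 he1).trans (le_abs_self _)
  have hTdf : O.T (Rt e df) ≤ C := by
    have hp : T.P df = df := Subtype.ext (by rw [T.hP]; exact p11_dfdcf S.isJ hh)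
    rw [← P.rep e he0 he1 df, ← T.hQ, ← T.Q_P_right _ _ hp, T.hQ, T.hP]
    exact (P.test e he0 he1).trans (le_abs_self _)
  have hTF : O.T (Rt e S.F) ≤ D * BF :=
    le_of_abs_le (hD.sup e he0 he1 _ _ (S.nrm_le_cN 0 S.F.2))
  suffices h : ∀ s : ℝ, |s| = 1 →
      -(a * (C + Ca * (D * BF) + D * (C + Ca * BF * V + 33 * Cw * (C + V)))) ≤
        s * O.T (Rt e (T.P W)) by
    have hp := h 1 abs_one
    have hm := h (-1) (by simp)
    exact abs_le.2 ⟨by linarith, by linarith⟩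
  intro s hs
  set η : Form M := a • df + (a * Ca) • S.F + s • T.P W with hη
  have hη1 : p11 S.J η.1 = η.1 := by
    rw [p11_eq_self_iff]
    intro x p q
    have h1 := (p11_eq_self_iff S.J _).1 (p11_dfdcf S.isJ hh)
    have h2 := (p11_eq_self_iff S.J _).1 S.F_inv
    have h3 := (p11_eq_self_iff S.J _).1 (p11_p11 S.isJ W.2.isAltField)
    simp only [η, df, Submodule.coe_add, Submodule.coe_smul, Pi.add_apply, Pi.smul_apply,
      smul_eq_mul, hPW, h1, h2, h3]
  have hη0 : NonnegJ S.J η.1 := fun x v => by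
    have h1 := abs_wedgeDF_apply_le S.isJ hh hα.1 x v
    have h2 := hCa x v
    have h3 := nonnegJ_dfdcf S.isJ hh x v
    have h4 := nonneg_F S x v
    have h5 : |s * W.1 x v (S.J x v)| ≤ a * (dfdcf S.J hh x v (S.J x v) +
        Ca * S.F.1 x v (S.J x v)) := by
      rw [abs_mul, hs, one_mul, hWd, gradTerm_eq, smulFn, abs_mul]
      exact mul_le_mul (hg' x) (by linarith [mul_nonneg hCa0 h4]) (abs_nonneg _) ha0
    simp only [η, df, Submodule.coe_add, Submodule.coe_smul, Pi.add_apply, Pi.smul_apply,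
      smul_eq_mul, hPW, Dual.apply_J_p11 S W.2.isAltField]
    linarith [neg_abs_le (s * W.1 x v (S.J x v))]
  have hηn : ∫ x, S.nrm η.1 x ∂S.vol ≤ a * (C + Ca * BF * V + 33 * Cw * (C + V)) := by
    calc ∫ x, S.nrm η.1 x ∂S.vol
        ≤ ∫ x, ((a + 33 * a * Cw) * S.nrm (dfdcf S.J hh) x + a * (Ca * BF + 33 * Cw)) ∂S.vol := by
          refine integral_mono (hi (T.nrm_cont η))
            (hi ((continuous_const.mul hmc).add continuous_const)) fun x => ?_
          have h0 := nrm_comb_le S a (a * Ca) s (dfdcf S.J hh) S.F.1 (p11 S.J W.1) x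
          rw [hs, one_mul, abs_of_nonneg ha0, abs_of_nonneg (mul_nonneg ha0 hCa0)] at h0
          have h1 := nrm_p11_le S W.2.isAltField x
          have h2 := nrm_gradTerm_le P k e hα hg' x
          have h3 := hCw x
          have h4 := mul_le_mul_of_nonneg_left h3 (show 0 ≤ 33 * a by positivity)
          have h5 := mul_le_mul_of_nonneg_left (S.nrm_le_cN 0 S.F.2 x) (mul_nonneg ha0 hCa0)
          simp only [η, df, Submodule.coe_add, Submodule.coe_smul, hPW]
          linarith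
      _ = (a + 33 * a * Cw) * ∫ x, S.nrm (dfdcf S.J hh) x ∂S.vol
          + a * (Ca * BF + 33 * Cw) * V := by
          rw [integral_add (hi (f := fun x => (a + 33 * a * Cw) * S.nrm (dfdcf S.J hh) x)
            (continuous_const.mul hmc)) (integrable_const _), integral_const_mul, integral_const]
          simp only [smul_eq_mul, V]
          ring
      _ ≤ _ := by
          have h1 := mul_le_mul_of_nonneg_left hint_m (show 0 ≤ a + 33 * a * Cw by positivity)
          linarith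
  have hlow := hD.inv_int e he0 he1 η hη1 hη0
  simp only [η, map_add, map_smul, smul_eq_mul] at hlow
  have h7 := mul_le_mul_of_nonneg_left hTdf ha0
  have h8 := mul_le_mul_of_nonneg_left hTF (mul_nonneg ha0 hCa0)
  have h9 := mul_le_mul_of_nonneg_left hηn hD.nonneg
  linarith

theorem anti_cut_le (T : EndTools S) (hD : Bounds O Rt D) (P : PotData O Rt) (k : ℕ) {e : ℝ}
    (he0 : 0 < e) (he1 : e ≤ 1) (w : Form M) :
    |O.T (Rt e (fmul (P.top k e) (P.smooth_top k e) (w - T.P w)))| ≤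
      D * e * (34 * S.cN 0 w.1) := by
  refine hD.anti_sup e he0 he1 _ ?_ _ fun x => ?_
  · funext x a b
    have h' := congrFun (congrFun (congrFun (T.pm_self w) x) a) b
    simp only [fmul_coe, smulFn, pm] at h' ⊢
    linear_combination (P.top k e x) * h'
  · show S.nrm (smulFn (P.top k e) (w - T.P w).1) x ≤ _
    exact nrm_smulFn_le S (P.abs_top_le k e) (fun y => (nrm_anti_le T w y).trans
      (mul_le_mul_of_nonneg_left (S.nrm_le_cN 0 w.2 y) (by norm_num))) x

theorem anti_grad_le (T : EndTools S) (hD : Bounds O Rt D) (P : PotData O Rt) (k : ℕ) {e : ℝ}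
    (he0 : 0 < e) (he1 : e ≤ 1) (hα : IsOneForm α) {Cw a : ℝ} (hCw0 : 0 ≤ Cw) (ha0 : 0 ≤ a)
    (hg' : ∀ x, |high' k (P.h e x)| ≤ a)
    (hCw : ∀ x, e * S.nrm (wedgeDF (P.h e) α) x ≤
      Cw * (e ^ 2 * S.nrm (dfdcf S.J (P.h e)) x + 1)) :
    |O.T (Rt e (gradTerm P k e hα - T.P (gradTerm P k e hα)))| ≤
      D * (34 * Cw) * (|P.C| + 1) * a := by
  have hm0 : ∀ x, 0 ≤ S.nrm (dfdcf S.J (P.h e)) x := fun x => S.nrm_nonneg _ x
  have hmc : Continuous (S.nrm (dfdcf S.J (P.h e))) :=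
    T.nrm_cont ⟨_, isTwoForm_dfdcf S.isJ (P.smooth e)⟩
  refine (hD.anti_int e he0 he1 _ (T.pm_self _) _ (34 * a * Cw) hmc hm0 (by positivity)
    fun x => ?_).trans ?_
  · have h1 := mul_le_mul_of_nonneg_left ((nrm_anti_le T (gradTerm P k e hα) x).trans
      (mul_le_mul_of_nonneg_left (nrm_gradTerm_le P k e hα hg' x)
        (by norm_num : (0 : ℝ) ≤ 34))) he0.le
    have h2 := mul_le_mul_of_nonneg_left (hCw x) (show 0 ≤ 34 * a by positivity)
    linarith
  · have hint : ∫ x, S.nrm (dfdcf S.J (P.h e)) x ∂S.vol ≤ |P.C| :=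
      (P.grad e he0 he1).trans (le_abs_self _)
    calc D * (34 * a * Cw) * (∫ x, S.nrm (dfdcf S.J (P.h e)) x ∂S.vol + 1)
        ≤ D * (34 * a * Cw) * (|P.C| + 1) :=
          mul_le_mul_of_nonneg_left (by linarith) (mul_nonneg hD.nonneg (by positivity))
      _ = _ := by ring

theorem val_exact_eq (T : EndTools S) (hop : Mollif S Rt) (P : PotData O Rt) (k : ℕ) (e : ℝ)
    (hα : IsOneForm α) {w : Form M}
    (hαw : ∀ x0 : M, ∀ y ∈ (extChartAt (𝓡 4) x0).target, ∀ u v : E4,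
      formInChart w.1 x0 y u v =
        fderiv ℝ (fun z => α ((extChartAt (𝓡 4) x0).symm z) (fromChart x0 z v)) y u -
          fderiv ℝ (fun z => α ((extChartAt (𝓡 4) x0).symm z) (fromChart x0 z u)) y v) :
    P.val k e w = -O.φ (Rt e (fmul (P.top k e) (P.smooth_top k e) w + gradTerm P k e hα))
      - O.T (Rt e (T.P (gradTerm P k e hα)))
      - O.T (Rt e (gradTerm P k e hα - T.P (gradTerm P k e hα)))
      - O.T (Rt e (fmul (P.top k e) (P.smooth_top k e) (w - T.P w))) := by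
  have hE : IsExactForm (fmul (P.top k e) (P.smooth_top k e) w + gradTerm P k e hα).1 :=
    isExactForm_smul_add hα hαw (P.smooth_top k e)
  have hnull := O.closed_null _ (T.exact_closed _ (hop.exact e _ hE))
  have hp : p11L S.isJ w = T.P w := Subtype.ext (T.hP w).symm
  rw [P.val_apply, hp]
  simp only [map_sub, map_add] at hnull ⊢
  linarith

theorem phi_cut_le (T : EndTools S) (P : PotData O Rt) (k : ℕ) {e : ℝ}
    (he0 : 0 < e) (he1 : e ≤ 1) (hα : IsOneForm α) (w : Form M) {Cw C' Cp Cg : ℝ}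
    (hCw0 : 0 ≤ Cw) (hC' : ∀ x, |high' k (P.h e x)| ≤ C' * (1 / (k + 1)))
    (hCw : ∀ x, S.nrm (wedgeDF (P.h e) α) x ^ 2 ≤ Cw * S.nrm (dfdcf S.J (P.h e)) x)
    (hCp : ∀ v : Form M, |O.φ v| ≤ Cp * S.l2 v.1)
    (hCg : ∀ v : Form M, S.sN 0 e (Rt e v).1 ≤ Cg * S.l2 v.1) :
    |O.φ (Rt e (fmul (P.top k e) (P.smooth_top k e) w + gradTerm P k e hα))| ≤
      |Cp| * T.C * |Cg| * Real.sqrt (2 * S.cN 0 w.1 ^ 2 * |P.C| + 2 * C' ^ 2 * Cw * |P.C|) *
        (Real.sqrt (k + 1))⁻¹ := by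
  have hl2 := l2_cut_le T P k he0 he1 hα w hCw0 hC' hCw
  generalize fmul (P.top k e) (P.smooth_top k e) w + gradTerm P k e hα = E at hl2 ⊢
  have hTC : 0 ≤ T.C := zero_le_one.trans T.C_pos
  have h1 : S.sN 0 e (Rt e E).1 ≤ |Cg| * S.l2 E.1 :=
    (hCg E).trans (mul_le_mul_of_nonneg_right (le_abs_self _) (T.l2_nonneg E))
  calc |O.φ (Rt e E)| ≤ |Cp| * S.l2 (Rt e E).1 :=
        (hCp _).trans (mul_le_mul_of_nonneg_right (le_abs_self _) (T.l2_nonneg _))
    _ ≤ |Cp| * (T.C * (|Cg| * (Real.sqrt (2 * S.cN 0 w.1 ^ 2 * |P.C| + 2 * C' ^ 2 * Cw * |P.C|) *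
          (Real.sqrt (k + 1))⁻¹))) :=
        mul_le_mul_of_nonneg_left ((T.l2_le_sN e _).trans (mul_le_mul_of_nonneg_left
          (h1.trans (mul_le_mul_of_nonneg_left hl2 (abs_nonneg _))) hTC)) (abs_nonneg _)
    _ = _ := by ring

theorem abs_four_le {a b c d A B C' D' : ℝ} (ha : |a| ≤ A) (hb : |b| ≤ B) (hc : |c| ≤ C')
    (hd : |d| ≤ D') : |-a - b - c - d| ≤ A + B + C' + D' := by
  obtain ⟨a1, a2⟩ := abs_le.1 ha
  obtain ⟨b1, b2⟩ := abs_le.1 hb
  obtain ⟨c1, c2⟩ := abs_le.1 hc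
  obtain ⟨d1, d2⟩ := abs_le.1 hd
  exact abs_le.2 ⟨by linarith, by linarith⟩

/-- The part above height `k + 1` of an exact form is at most a multiple of `(k + 1) ^ (-1/2)`. -/
theorem exists_part_exact (T : EndTools S) (hop : Mollif S Rt) (hphi : PhiL2 O)
    (hD : Bounds O Rt D) (P : PotData O Rt) {l : Ultrafilter ℝ}
    (hl : (l : Filter ℝ) ≤ 𝓝[>] 0) {w : Form M} (hw : IsExactForm w.1) :
    ∃ A, ∀ k : ℕ, |part hD P hl k w| ≤ A / Real.sqrt (k + 1) := by
  have := T.finite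
  obtain ⟨α, hα, hαw⟩ := hw
  obtain ⟨Cw, hCw0, hCw⟩ := exists_nrm_wedgeDF_le S hα
  obtain ⟨Ca, hCa0, hCa⟩ := exists_aac_le S hα
  obtain ⟨Cp, hCp⟩ := hphi
  obtain ⟨Cg, hCg⟩ := hop.gain 0
  obtain ⟨C', hC'0, hC'⟩ := exists_abs_high'_le
  refine ⟨|Cp| * T.C * |Cg| * Real.sqrt (2 * S.cN 0 w.1 ^ 2 * |P.C| + 2 * C' ^ 2 * Cw * |P.C|)
    + C' * (|P.C| + Ca * (D * S.cN 0 S.F.1) + D * (|P.C| + Ca * S.cN 0 S.F.1 * S.vol.real univ +
        33 * Cw * (|P.C| + S.vol.real univ)))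
    + D * (34 * Cw) * (|P.C| + 1) * C' + D * (34 * S.cN 0 w.1), fun k => ?_⟩
  set r := Real.sqrt (k + 1)
  have hr1 : 1 ≤ r := Real.one_le_sqrt.2 (by linarith [(Nat.cast_nonneg k : (0 : ℝ) ≤ k)])
  have hr0 : 0 < r := one_pos.trans_le hr1
  have hr2 : r ^ 2 = k + 1 := Real.sq_sqrt (by positivity)
  refine Dual.abs_uLim_le ((eventually_small l hl (inv_pos.2 hr0)).mono fun e he => ?_)
  obtain ⟨he0, her⟩ := he
  have he1 : e ≤ 1 := her.trans (inv_le_one_of_one_le₀ hr1)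
  set u : ℝ := 1 / (k + 1) with hu
  have hu0 : 0 ≤ u := by positivity
  have hur : u = r⁻¹ * r⁻¹ := by rw [hu, ← hr2]; field_simp
  have hur' : u ≤ r⁻¹ := by
    rw [hur]; exact mul_le_of_le_one_left (inv_nonneg.2 hr0.le) (inv_le_one_of_one_le₀ hr1)
  have hg' : ∀ x, |high' k (P.h e x)| ≤ C' * u := fun x => (hC' k _).trans_eq (by rw [hu]; ring)
  have h1 := phi_cut_le T P k he0 he1 hα w hCw0 hg' (fun x => (hCw _ (P.smooth e) x).1) hCp
    (hCg e he0 he1)
  have h2 := inv_term_le T hD P k he0 he1 hα hCw0 hCa0 (mul_nonneg hC'0 hu0) hg'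
    (fun x => by simpa using (hCw _ (P.smooth e) x).2 1 zero_le_one) hCa
  have h3 := anti_grad_le T hD P k he0 he1 hα hCw0 (mul_nonneg hC'0 hu0) hg'
    fun x => (hCw _ (P.smooth e) x).2 e he0.le
  have h4 := anti_cut_le T hD P k he0 he1 w
  change |P.val k e w| ≤ _
  rw [val_exact_eq T hop P k e hα hαw, div_eq_mul_inv, add_mul, add_mul, add_mul]
  refine abs_four_le h1 (h2.trans ?_) (h3.trans ?_) (h4.trans ?_)
  · rw [mul_right_comm C' _ r⁻¹]
    refine mul_le_mul_of_nonneg_right (mul_le_mul_of_nonneg_left hur' hC'0) ?_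
    have hD0 := hD.nonneg
    have hF0 := S.cN_nonneg 0 S.F.1
    positivity
  · rw [mul_assoc _ C' r⁻¹]
    exact mul_le_mul_of_nonneg_left (mul_le_mul_of_nonneg_left hur' hC'0)
      (mul_nonneg (mul_nonneg hD.nonneg (by positivity)) (by positivity))
  · rw [mul_right_comm D (34 * S.cN 0 w.1) r⁻¹]
    exact mul_le_mul_of_nonneg_right (mul_le_mul_of_nonneg_left her hD.nonneg)
      (mul_nonneg (by norm_num) (S.cN_nonneg 0 _))

end Vale.Agent.P204.Full.Step5
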