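import Mathlib

/-!
P204, step 5: soft limit lemmas (monotone limit of functionals, uniform limit of equicontinuous
families, dyadic series) (helper76).
-/

namespace Vale.Agent.P204.Full.Step5

open Filter Topology MeasureTheory

/-- A decreasing nonnegative sequence of functionals on a generating set has a linear limit. -/
theorem exists_limit_functional {W : Type*} [AddCommGroup W] [Module ℝ W]
    (part : ℕ → W →ₗ[ℝ] ℝ) (P : W → Prop)
    (h0 : ∀ k, ∀ w, P w → 0 ≤ part k w) (hanti : ∀ k, ∀ w, P w → part (k + 1) w ≤ part k w)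
    (hgen : ∀ w, ∃ u v, P u ∧ P v ∧ ∀ k, part k w = part k u - part k v) :
    ∃ lim : W →ₗ[ℝ] ℝ, ∀ w, Tendsto (fun k => part k w) atTop (𝓝 (lim w)) := by
  have hP : ∀ w, P w → Tendsto (fun k => part k w) atTop (𝓝 (⨅ k, part k w)) := fun w hw =>
    tendsto_atTop_ciInf (antitone_nat_of_succ_le fun k => hanti k w hw)
      ⟨0, by rintro _ ⟨k, rfl⟩; exact h0 k w hw⟩
  have hall : ∀ w, ∃ a, Tendsto (fun k => part k w) atTop (𝓝 a) := fun w => by
    obtain ⟨u, v, hu, hv, he⟩ := hgen w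
    exact ⟨_, ((hP u hu).sub (hP v hv)).congr fun k => (he k).symm⟩
  choose a ha using hall
  refine ⟨{ toFun := a, map_add' := fun x y => ?_, map_smul' := fun c x => ?_ }, ha⟩
  · exact tendsto_nhds_unique (ha (x + y)) (((ha x).add (ha y)).congr fun k => by simp)
  · simpa using tendsto_nhds_unique (ha (c • x)) (((ha x).const_mul c).congr fun k => by simp)

variable {X : Type*} [TopologicalSpace X] [CompactSpace X] {ι : Type*} {l : Filter ι} [l.NeBot]
  {G : ι → X → ℝ} {g : X → ℝ}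

/-- Pointwise convergence of an equicontinuous family on a compact space is uniform. -/
theorem tendstoUniformly_of_modulus (D : X → X → ℝ)
    (hD : ∀ x0, Tendsto (D x0) (𝓝 x0) (𝓝 0))
    (hmod : ∀ᶠ i in l, ∀ x0 x, |G i x - G i x0| ≤ D x0 x)
    (hlim : ∀ x, Tendsto (fun i => G i x) l (𝓝 (g x))) :
    TendstoUniformly G g l ∧ Continuous g := by
  have hgm : ∀ x0 x, |g x - g x0| ≤ D x0 x := fun x0 x =>
    le_of_tendsto ((hlim x).sub (hlim x0)).abs (hmod.mono fun i hi => hi x0 x)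
  refine ⟨Metric.tendstoUniformly_iff.2 fun ε hε => ?_, continuous_iff_continuousAt.2 fun x0 => ?_⟩
  · have hU : ∀ x0, {x | D x0 x < ε / 3} ∈ 𝓝 x0 := fun x0 =>
      (hD x0).eventually (gt_mem_nhds (by positivity))
    obtain ⟨t, ht⟩ := CompactSpace.elim_nhds_subcover (fun x0 => {x | D x0 x < ε / 3}) hU
    have hfin : ∀ᶠ i in l, ∀ x0 ∈ t, |G i x0 - g x0| < ε / 3 :=
      (t.eventually_all).2 fun x0 _ => by
        have := Metric.tendsto_nhds.1 (hlim x0) (ε / 3) (by positivity)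
        simpa [Real.dist_eq] using this
    filter_upwards [hfin, hmod] with i hi hm x
    have hx : x ∈ ⋃ x0 ∈ t, {x | D x0 x < ε / 3} := by rw [ht]; trivial
    simp only [Set.mem_iUnion, Set.mem_ofPred_eq, exists_prop] at hx
    obtain ⟨x0, hx0, hlt⟩ := hx
    have h1 := hm x0 x
    have h2 := hgm x0 x
    have h3 := hi x0 hx0
    rw [Real.dist_eq]
    rw [abs_sub_lt_iff]
    have a1 := abs_le.1 h1
    have a2 := abs_le.1 h2
    have a3 := abs_lt.1 h3
    constructor <;> linarith [a1.1, a1.2, a2.1, a2.2, a3.1, a3.2]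
  · have h := squeeze_zero_norm (fun x => (Real.norm_eq_abs _).le.trans (hgm x0 x)) (hD x0)
    exact tendsto_sub_nhds_zero_iff.1 h

omit [l.NeBot] in
/-- Uniform convergence of bounded continuous functions passes to integrals of squares. -/
theorem tendsto_integral_sq [MeasurableSpace X] [BorelSpace X] (μ : Measure X) [IsFiniteMeasure μ]
    (hu : TendstoUniformly G g l) (hg : Continuous g) (hG : ∀ᶠ i in l, Continuous (G i)) :
    Tendsto (fun i => ∫ x, G i x ^ 2 ∂μ) l (𝓝 (∫ x, g x ^ 2 ∂μ)) := by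
  obtain ⟨B, hB⟩ := isCompact_univ.exists_bound_of_continuousOn hg.continuousOn
  have hB0 : ∀ x, |g x| ≤ max B 0 := fun x =>
    ((Real.norm_eq_abs _).symm.le.trans (hB x trivial)).trans (le_max_left _ _)
  rw [Metric.tendsto_nhds]
  intro ε hε
  set M' := μ.real Set.univ with hM'
  have hM0 : 0 ≤ M' := measureReal_nonneg
  set d := min 1 (ε / ((2 * max B 0 + 1) * (M' + 1))) with hd
  have hd0 : 0 < d := lt_min one_pos (by positivity)
  filter_upwards [Metric.tendstoUniformly_iff.1 hu d hd0, hG] with i hi hc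
  have hint : ∀ f : X → ℝ, Continuous f → Integrable f μ := fun f hf =>
    hf.integrable_of_hasCompactSupport (HasCompactSupport.of_compactSpace f)
  rw [Real.dist_eq, ← integral_sub (hint (fun x => G i x ^ 2) (hc.pow 2))
    (hint (fun x => g x ^ 2) (hg.pow 2))]
  have hle : ∀ x, ‖G i x ^ 2 - g x ^ 2‖ ≤ d * (2 * max B 0 + 1) := fun x => by
    have h1 := hi x
    rw [Real.dist_eq, abs_sub_comm] at h1
    have h2 : |G i x + g x| ≤ 2 * max B 0 + 1 := by
      have h3 : |G i x - g x| ≤ 1 := h1.le.trans (min_le_left _ _)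
      calc |G i x + g x| = |(G i x - g x) + 2 * g x| := by ring_nf
        _ ≤ |G i x - g x| + |2 * g x| := abs_add_le _ _
        _ ≤ _ := by rw [abs_mul, abs_two]; linarith [hB0 x]
    rw [Real.norm_eq_abs, sq_sub_sq, abs_mul, mul_comm d]
    exact mul_le_mul h2 h1.le (abs_nonneg _) (by positivity)
  refine lt_of_le_of_lt ((Real.norm_eq_abs _).symm.le.trans
    (norm_integral_le_of_norm_le_const (Filter.Eventually.of_forall hle))) ?_
  calc d * (2 * max B 0 + 1) * M'
      ≤ ε / ((2 * max B 0 + 1) * (M' + 1)) * (2 * max B 0 + 1) * M' := by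
        gcongr
        exact min_le_right _ _
    _ = ε * (M' / (M' + 1)) := by field_simp
    _ < ε * 1 := mul_lt_mul_of_pos_left ((div_lt_one (by positivity)).2 (by linarith)) hε
    _ = ε := mul_one _

/-- A nonnegative series with bounded partial sums has vanishing terms. -/
theorem tendsto_zero_of_sum_le {a : ℕ → ℝ} {C : ℝ} (ha : ∀ j, 0 ≤ a j)
    (h : ∀ J, ∑ j ∈ Finset.range J, a j ≤ C) : Tendsto a atTop (𝓝 0) :=
  (summable_of_sum_range_le ha h).tendsto_atTop_zero

/-- Interpolation between dyadic scales. -/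
theorem tendsto_of_dyadic {φ : ℝ → ℝ} {t : ℕ → ℝ} {C : ℝ} (ht : Tendsto t atTop (𝓝 0))
    (h0 : ∀ δ, 0 < δ → 0 ≤ φ δ)
    (h : ∀ j δ, (1 / 2 : ℝ) ^ (j + 1) < δ → δ ≤ (1 / 2 : ℝ) ^ j → φ δ ≤ C * t j) :
    Tendsto φ (𝓝[>] 0) (𝓝 0) := by
  have hCt : Tendsto (fun j => C * t j) atTop (𝓝 0) := by simpa using ht.const_mul C
  rw [Metric.tendsto_nhds]
  intro ε hε
  obtain ⟨J0, hJ0⟩ := eventually_atTop.1 (hCt.eventually (gt_mem_nhds hε))
  filter_upwards [Ioo_mem_nhdsGT (show (0 : ℝ) < (1 / 2) ^ J0 by positivity)] with δ hδ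
  obtain ⟨n, hn1, hn2⟩ := exists_nat_pow_near_of_lt_one hδ.1
    (hδ.2.le.trans (pow_le_one₀ (by norm_num) (by norm_num))) (by norm_num : (0 : ℝ) < 1 / 2)
    (by norm_num)
  have hn : J0 ≤ n := by
    by_contra hlt
    have : (1 / 2 : ℝ) ^ J0 ≤ (1 / 2) ^ (n + 1) :=
      pow_le_pow_of_le_one (by norm_num) (by norm_num) (by omega)
    linarith [hδ.2]
  rw [Real.dist_eq, sub_zero, abs_of_nonneg (h0 δ hδ.1)]
  exact (h n δ hn1 hn2).trans_lt (hJ0 n hn)

end Vale.Agent.P204.Full.Step5
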