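import Mathlib

/-!
P204, step 5: the smooth cut at height `k + 1` (helper76).
-/

namespace Vale.Agent.P204.Full.Step5

open Set Real
open scoped ContDiff

/-- one minus the cut-off of heights at most `k + 1`: zero below `k + 1`, one above `2 (k + 1)` -/
noncomputable def high (k : ℕ) (t : ℝ) : ℝ := 1 - smoothTransition (2 - t / (k + 1))

/-- the derivative of `high` -/
noncomputable def high' (k : ℕ) (t : ℝ) : ℝ := deriv smoothTransition (2 - t / (k + 1)) / (k + 1)

theorem high_nonneg (k : ℕ) (t : ℝ) : 0 ≤ high k t :=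
  sub_nonneg.2 (smoothTransition.le_one _)

theorem high_le_one (k : ℕ) (t : ℝ) : high k t ≤ 1 :=
  sub_le_self _ (smoothTransition.nonneg _)

theorem high_eq_zero {k : ℕ} {t : ℝ} (h : t ≤ k + 1) : high k t = 0 := by
  rw [high, smoothTransition.one_of_one_le, sub_self]
  have : t / (k + 1) ≤ 1 := (div_le_one (by positivity)).2 h
  linarith

theorem high_eq_one {k : ℕ} {t : ℝ} (h : 2 * (k + 1) ≤ t) : high k t = 1 := by
  rw [high, smoothTransition.zero_of_nonpos, sub_zero]
  have : 2 ≤ t / (k + 1) := (le_div_iff₀ (by positivity)).2 h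
  linarith

theorem le_of_high_ne_one {k : ℕ} {t : ℝ} (h : high k t ≠ 1) : t ≤ 2 * (k + 1) :=
  le_of_not_ge fun h' => h (high_eq_one h')

theorem high_le_div {k : ℕ} {t : ℝ} (ht : 0 ≤ t) : high k t ≤ t / (k + 1) := by
  rcases le_or_gt t (k + 1) with h | h
  · rw [high_eq_zero h]; positivity
  · exact (high_le_one k t).trans ((one_le_div (by positivity)).2 h.le)

theorem high_succ_le {k : ℕ} {t : ℝ} (ht : 0 ≤ t) : high (k + 1) t ≤ high k t := by
  refine sub_le_sub_left (smoothTransition.monotone ?_) _
  gcongr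
  linarith

theorem contDiff_high (k : ℕ) : ContDiff ℝ ∞ (high k) :=
  contDiff_const.sub (smoothTransition.contDiff.comp (contDiff_const.sub (contDiff_id.div_const _)))

theorem hasDerivAt_high (k : ℕ) (t : ℝ) : HasDerivAt (high k) (high' k t) t := by
  have h1 : HasDerivAt (fun t : ℝ => 2 - t / (k + 1)) (-(1 / (k + 1))) t := by
    simpa using ((hasDerivAt_id t).div_const ((k : ℝ) + 1)).const_sub 2
  have h2 : HasDerivAt smoothTransition (deriv smoothTransition (2 - t / (k + 1)))
      (2 - t / (k + 1)) :=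
    ((smoothTransition.contDiff (n := 1)).differentiable one_ne_zero).differentiableAt.hasDerivAt
  have h3 := (h2.comp t h1).const_sub 1
  rw [show high' k t = -(deriv smoothTransition (2 - t / (k + 1)) * -(1 / ((k : ℝ) + 1))) by
    rw [high']; ring]
  exact h3

theorem contDiff_high' (k : ℕ) : Continuous (high' k) :=
  (((smoothTransition.contDiff (n := 1)).continuous_deriv le_rfl).comp
    (continuous_const.sub (continuous_id.div_const _))).div_const _

theorem exists_abs_high'_le : ∃ C, 0 ≤ C ∧ ∀ k t, |high' k t| ≤ C / (k + 1) := by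
  obtain ⟨C, hC⟩ := (isCompact_Icc (a := (0 : ℝ)) (b := 1)).exists_bound_of_continuousOn
    ((smoothTransition.contDiff (n := 1)).continuous_deriv le_rfl).continuousOn
  have hC0 : 0 ≤ C := (norm_nonneg _).trans (hC 0 (by simp))
  refine ⟨C, hC0, fun k t => ?_⟩
  rw [high', abs_div, abs_of_pos (show (0 : ℝ) < k + 1 by positivity)]
  gcongr
  set s := 2 - t / (k + 1)
  rcases lt_trichotomy s 0 with h | h | h
  · have e : smoothTransition =ᶠ[nhds s] fun _ => (0 : ℝ) :=
      Filter.eventually_of_mem (Iio_mem_nhds h) fun x hx => smoothTransition.zero_of_nonpos hx.le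
    rw [e.deriv_eq, deriv_const, abs_zero]; exact hC0
  · simpa [h] using hC 0 (by simp)
  · rcases le_or_gt s 1 with h' | h'
    · simpa using hC s ⟨h.le, h'⟩
    · have e : smoothTransition =ᶠ[nhds s] fun _ => (1 : ℝ) :=
        Filter.eventually_of_mem (Ioi_mem_nhds h') fun x hx =>
          smoothTransition.one_of_one_le (le_of_lt hx)
      rw [e.deriv_eq, deriv_const, abs_zero]; exact hC0

end Vale.Agent.P204.Full.Step5
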