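import Vale.Agent.P204.Full.Cut.Basic
import Vale.Agent.P204.Full.Cut.Theta
import Vale.Agent.P204.Full.Cut.Lim
import Vale.Agent.P204.Full.Dual.Limit

/-!
P204, step 5: the cut family and its limit along an ultrafilter (helper76).
-/

namespace Vale.Agent.P204.Full.Step5

open MeasureTheory Set Filter Topology
open scoped Manifold ContDiff

set_option linter.unusedSectionVars false

universe u

variable {M : Type u} [TopologicalSpace M] [CompactSpace M] [ChartedSpace E4 M]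
  [IsManifold (𝓡 4) ∞ M] [MeasurableSpace M] [BorelSpace M]

/-- potentials at all scales, as supplied by the energy estimate -/
structure PotData {S : Setup M} (O : Obstruction S) (Rt : ℝ → Form M →ₗ[ℝ] Form M) where
  h : ℝ → M → ℝ
  TR : ℝ → Form M
  smooth : ∀ e, IsSmoothFn (h e)
  nonneg : ∀ e x, 0 ≤ h e x
  C : ℝ
  CK : ℝ → ℝ
  rep : ∀ e : ℝ, 0 < e → e ≤ 1 → ∀ ζ : Form M, S.pair (TR e).1 ζ.1 = O.T (Rt e ζ)
  mass : ∀ e : ℝ, 0 < e → e ≤ 1 → ∫ x, h e x ∂S.vol ≤ C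
  grad : ∀ e : ℝ, 0 < e → e ≤ 1 → ∫ x, S.nrm (dfdcf S.J (h e)) x ∂S.vol ≤ C
  test : ∀ e : ℝ, 0 < e → e ≤ 1 →
    ∫ x, wg S.F.1 (p11 S.J (TR e).1) (dfdcf S.J (h e)) x ∂S.vol ≤ C
  energy : ∀ e : ℝ, 0 < e → e ≤ 1 → ∀ f : M → ℝ, IsSmoothFn f → (∀ x, 0 ≤ f x ∧ f x ≤ 1) →
    ∀ L : ℝ, (∀ x, f x ≠ 0 → h e x ≤ L) → ∀ K > 0, ∀ J : ℕ, e ≤ (1 / 2 : ℝ) ^ J →
      ∑ j ∈ Finset.range J, ((1 / 2 : ℝ) ^ j) ^ 2 *
        ∫ x, S.maj (K * (1 / 2 : ℝ) ^ j) (fun y => f y * |wg S.F.1 (TR e).1 S.F.1 y|) x ^ 2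
          ∂S.vol ≤ CK K * Real.exp L

omit [CompactSpace M] [IsManifold (𝓡 4) ∞ M] [BorelSpace M] in
theorem exists_potData {S : Setup M} (O : Obstruction S) (hE : EnergySpec S)
    {R Rt : ℝ → Form M →ₗ[ℝ] Form M} (hP : SmoothPair S R Rt) (hden : Density O) (hphi : PhiL2 O) :
    Nonempty (PotData O Rt) := by
  obtain ⟨C, CK, hC⟩ := hE R Rt hP O hden hphi
  have key : ∀ e : ℝ, ∃ (TR : Form M) (h : M → ℝ), IsSmoothFn h ∧ (∀ x, 0 ≤ h x) ∧
      (0 < e → e ≤ 1 → (∀ ζ : Form M, S.pair TR.1 ζ.1 = O.T (Rt e ζ)) ∧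
        ∫ x, h x ∂S.vol ≤ C ∧ ∫ x, S.nrm (dfdcf S.J h) x ∂S.vol ≤ C ∧
        ∫ x, wg S.F.1 (p11 S.J TR.1) (dfdcf S.J h) x ∂S.vol ≤ C ∧
        ∀ f : M → ℝ, IsSmoothFn f → (∀ x, 0 ≤ f x ∧ f x ≤ 1) → ∀ L : ℝ,
          (∀ x, f x ≠ 0 → h x ≤ L) → ∀ K > 0, ∀ J : ℕ, e ≤ (1 / 2 : ℝ) ^ J →
            ∑ j ∈ Finset.range J, ((1 / 2 : ℝ) ^ j) ^ 2 *
              ∫ x, S.maj (K * (1 / 2 : ℝ) ^ j) (fun y => f y * |wg S.F.1 TR.1 S.F.1 y|) x ^ 2
                ∂S.vol ≤ CK K * Real.exp L) := by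
    intro e
    by_cases he : 0 < e ∧ e ≤ 1
    · obtain ⟨TR, hTR⟩ := (hP.represent O.T 0 O.bound O.T_bound e he.1 he.2).1
      obtain ⟨h, h1, h2, h3, h4, h5, h6⟩ := hC e he.1 he.2 TR hTR
      exact ⟨TR, h, h1, h2, fun _ _ => ⟨hTR, h3, h4, h5, h6⟩⟩
    · exact ⟨0, fun _ => 0, fun _ => contDiffOn_const, fun _ => le_rfl,
        fun a b => absurd ⟨a, b⟩ he⟩
  choose TR h h1 h2 h3 using key
  exact ⟨{
    h := h, TR := TR, smooth := h1, nonneg := h2, C := C, CK := CK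
    rep := fun e a b => (h3 e a b).1
    mass := fun e a b => (h3 e a b).2.1
    grad := fun e a b => (h3 e a b).2.2.1
    test := fun e a b => (h3 e a b).2.2.2.1
    energy := fun e a b => (h3 e a b).2.2.2.2 }⟩

variable {S : Setup M} {O : Obstruction S} {Rt : ℝ → Form M →ₗ[ℝ] Form M}

theorem coe_p11L_self {w : Form M} (hw : p11 S.J w.1 = w.1) : p11L S.isJ w = w := Subtype.ext hw

theorem nonneg_F (S : Setup M) : NonnegJ S.J S.F.1 := fun x v => by
  rcases eq_or_ne v 0 with rfl | hv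
  · simp [(S.F.2.1 x 0).map_zero, (S.isJ.1 x).map_zero]
  · exact (S.F_pos x v hv).le

theorem p11_smulFn (S : Setup M) (f : M → ℝ) {w : M → E4 → E4 → ℝ} (hw : p11 S.J w = w) :
    p11 S.J (smulFn f w) = smulFn f w := by
  rw [p11_eq_self_iff] at hw ⊢
  intro x u v
  simp only [smulFn, hw]

theorem nonnegJ_smulFn (S : Setup M) {f : M → ℝ} {w : M → E4 → E4 → ℝ} (hf : ∀ x, 0 ≤ f x)
    (hw : NonnegJ S.J w) : NonnegJ S.J (smulFn f w) := fun x v => mul_nonneg (hf x) (hw x v)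

theorem nrm_smulFn_le (S : Setup M) {f : M → ℝ} {w : M → E4 → E4 → ℝ} (hf : ∀ x, |f x| ≤ 1)
    {B : ℝ} (hw : ∀ x, S.nrm w x ≤ B) (x : M) : S.nrm (smulFn f w) x ≤ B := by
  rw [nrm_smulFn]
  exact (mul_le_of_le_one_left (S.nrm_nonneg w x) (hf x)).trans (hw x)

namespace PotData

variable (P : PotData O Rt)

/-- one minus the cut at height `k + 1` -/
noncomputable def top (k : ℕ) (e : ℝ) (x : M) : ℝ := high k (P.h e x)

theorem smooth_top (k : ℕ) (e : ℝ) : IsSmoothFn (P.top k e) :=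
  (P.smooth e).comp (contDiff_high k)

theorem smooth_low (k : ℕ) (e : ℝ) : IsSmoothFn fun x => 1 - P.top k e x :=
  (isSmoothFn_const 1).sub (P.smooth_top k e)

theorem abs_top_le (k : ℕ) (e : ℝ) (x : M) : |P.top k e x| ≤ 1 :=
  abs_le.2 ⟨le_trans (by norm_num) (high_nonneg k _), high_le_one k _⟩

theorem abs_low_le (k : ℕ) (e : ℝ) (x : M) : |1 - P.top k e x| ≤ 1 :=
  abs_le.2 ⟨by linarith [show P.top k e x ≤ 1 from high_le_one k _],
    by linarith [show 0 ≤ P.top k e x from high_nonneg k _]⟩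

/-- the functional cut above height `k + 1` at scale `e` -/
noncomputable def val (k : ℕ) (e : ℝ) : Form M →ₗ[ℝ] ℝ :=
  O.T ∘ₗ Rt e ∘ₗ fmul (P.top k e) (P.smooth_top k e) ∘ₗ p11L S.isJ

theorem val_apply (k : ℕ) (e : ℝ) (w : Form M) :
    P.val k e w = O.T (Rt e (fmul (P.top k e) (P.smooth_top k e) (p11L S.isJ w))) := rfl

end PotData

variable {D : ℝ}

theorem abs_val_le (hD : Bounds O Rt D) (P : PotData O Rt) (k : ℕ) {e : ℝ} (he : 0 < e)
    (he1 : e ≤ 1) (w : Form M) : |P.val k e w| ≤ D * (33 * S.cN 0 w.1) := by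
  refine hD.sup e he he1 _ _ fun x => ?_
  show S.nrm (smulFn (P.top k e) (p11 S.J w.1)) x ≤ _
  refine nrm_smulFn_le S (P.abs_top_le k e) (fun y => ?_) x
  exact (nrm_p11_le S w.2.isAltField y).trans
    (mul_le_mul_of_nonneg_left (S.nrm_le_cN 0 w.2 y) (by norm_num))

theorem eventually_small (l : Ultrafilter ℝ) (hl : (l : Filter ℝ) ≤ 𝓝[>] 0) {a : ℝ} (ha : 0 < a) :
    ∀ᶠ e in (l : Filter ℝ), 0 < e ∧ e ≤ a :=
  hl (Ioc_mem_nhdsGT ha)

theorem evBdd_val (hD : Bounds O Rt D) (P : PotData O Rt) {l : Ultrafilter ℝ}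
    (hl : (l : Filter ℝ) ≤ 𝓝[>] 0) (k : ℕ) (w : Form M) :
    Dual.EvBdd l fun e => P.val k e w :=
  ⟨_, (eventually_small l hl one_pos).mono fun _ he => abs_val_le hD P k he.1 he.2 w⟩

/-- the part of `T` above height `k + 1` -/
noncomputable def part (hD : Bounds O Rt D) (P : PotData O Rt) {l : Ultrafilter ℝ}
    (hl : (l : Filter ℝ) ≤ 𝓝[>] 0) (k : ℕ) : Form M →ₗ[ℝ] ℝ :=
  Dual.uLimFun l (P.val k) (evBdd_val hD P hl k)

theorem tendsto_part (hD : Bounds O Rt D) (P : PotData O Rt) {l : Ultrafilter ℝ}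
    (hl : (l : Filter ℝ) ≤ 𝓝[>] 0) (k : ℕ) (w : Form M) :
    Tendsto (fun e => P.val k e w) (l : Filter ℝ) (𝓝 (part hD P hl k w)) :=
  Dual.tendsto_uLimFun _ _ w

/-- smoothing tends to the identity on `T` -/
theorem tendsto_T (O : Obstruction S) (hop : Mollif S Rt) {l : Ultrafilter ℝ}
    (hl : (l : Filter ℝ) ≤ 𝓝[>] 0) (w : Form M) :
    Tendsto (fun e => O.T (Rt e w)) (l : Filter ℝ) (𝓝 (O.T w)) := by
  have h0 : Tendsto (fun e => O.bound * S.cN 0 ((Rt e w).1 - w.1)) (l : Filter ℝ) (𝓝 0) := by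
    simpa using ((hop.conv 0 w).mono_left hl).const_mul O.bound
  have h := squeeze_zero_norm (f := fun e => O.T (Rt e w) - O.T w) (fun e => ?_) h0
  · exact tendsto_sub_nhds_zero_iff.1 h
  · rw [← map_sub, Real.norm_eq_abs]
    exact O.T_bound (Rt e w - w)

/-- nonnegativity up to the error of the smoothing -/
theorem part_order (hD : Bounds O Rt D) {l : Ultrafilter ℝ} (hl : (l : Filter ℝ) ≤ 𝓝[>] 0)
    {f : ℝ → M → ℝ} (hf : ∀ e, IsSmoothFn (f e)) (hf0 : ∀ e x, 0 ≤ f e x) (hf1 : ∀ e x, f e x ≤ 1)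
    {w : Form M} (hw : p11 S.J w.1 = w.1) (hw0 : NonnegJ S.J w.1) {a : ℝ}
    (ha : Tendsto (fun e => O.T (Rt e (fmul (f e) (hf e) w))) (l : Filter ℝ) (𝓝 a)) : 0 ≤ a := by
  have h0 : Tendsto (fun e : ℝ => -(D * e ^ 2 * S.cN 0 w.1)) (l : Filter ℝ) (𝓝 0) := by
    have h1 : Continuous fun e : ℝ => -(D * e ^ 2 * S.cN 0 w.1) := by fun_prop
    simpa using (h1.tendsto 0).mono_left (hl.trans nhdsWithin_le_nhds)
  refine le_of_tendsto_of_tendsto h0 ha ?_
  filter_upwards [eventually_small l hl one_pos] with e he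
  exact hD.inv_sup e he.1 he.2 _ (p11_smulFn S _ hw) (nonnegJ_smulFn S (hf0 e) hw0) _
    (nrm_smulFn_le S (fun x => abs_le.2 ⟨le_trans (by norm_num) (hf0 e x), hf1 e x⟩)
      (S.nrm_le_cN 0 w.2))

theorem part_inv (hD : Bounds O Rt D) (P : PotData O Rt) {l : Ultrafilter ℝ}
    (hl : (l : Filter ℝ) ≤ 𝓝[>] 0) (k : ℕ) {w η : Form M} (h : η.1 = p11 S.J w.1) :
    part hD P hl k η = part hD P hl k w := by
  have e1 : η = p11L S.isJ w := Subtype.ext h
  refine tendsto_nhds_unique (tendsto_part hD P hl k η)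
    ((tendsto_part hD P hl k w).congr fun e => ?_)
  rw [P.val_apply, P.val_apply, e1,
    coe_p11L_self (w := p11L S.isJ w) (p11_p11 S.isJ w.2.isAltField)]

theorem part_nonneg (hD : Bounds O Rt D) (P : PotData O Rt) {l : Ultrafilter ℝ}
    (hl : (l : Filter ℝ) ≤ 𝓝[>] 0) (k : ℕ) {w : Form M} (hw : p11 S.J w.1 = w.1)
    (hw0 : NonnegJ S.J w.1) : 0 ≤ part hD P hl k w :=
  part_order hD hl (P.smooth_top k) (fun _ _ => high_nonneg k _) (fun _ _ => high_le_one k _) hw hw0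
    ((tendsto_part hD P hl k w).congr fun e => by rw [P.val_apply, coe_p11L_self hw])

theorem fmul_low (P : PotData O Rt) (k : ℕ) (e : ℝ) (w : Form M) :
    fmul _ (P.smooth_low k e) w = w - fmul _ (P.smooth_top k e) w := by
  refine Subtype.ext (funext fun x => funext fun u => funext fun v => ?_)
  simp only [Submodule.coe_sub, fmul_coe, Pi.sub_apply, smulFn]
  ring

theorem tendsto_rest (hD : Bounds O Rt D) (hop : Mollif S Rt) (P : PotData O Rt)
    {l : Ultrafilter ℝ} (hl : (l : Filter ℝ) ≤ 𝓝[>] 0) (k : ℕ) {w : Form M}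
    (hw : p11 S.J w.1 = w.1) :
    Tendsto (fun e => O.T (Rt e (fmul _ (P.smooth_low k e) w))) (l : Filter ℝ)
      (𝓝 (O.T w - part hD P hl k w)) :=
  ((tendsto_T O hop hl w).sub (tendsto_part hD P hl k w)).congr fun e => by
    rw [P.val_apply, coe_p11L_self hw, fmul_low, map_sub, map_sub]

theorem part_le (hD : Bounds O Rt D) (hop : Mollif S Rt) (P : PotData O Rt) {l : Ultrafilter ℝ}
    (hl : (l : Filter ℝ) ≤ 𝓝[>] 0) (k : ℕ) {w : Form M} (hw : p11 S.J w.1 = w.1)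
    (hw0 : NonnegJ S.J w.1) : part hD P hl k w ≤ O.T w :=
  sub_nonneg.1 (part_order hD hl (P.smooth_low k)
    (fun _ _ => sub_nonneg.2 (high_le_one k _)) (fun _ _ => sub_le_self _ (high_nonneg k _)) hw hw0
    (tendsto_rest hD hop P hl k hw))

theorem part_anti (hD : Bounds O Rt D) (P : PotData O Rt) {l : Ultrafilter ℝ}
    (hl : (l : Filter ℝ) ≤ 𝓝[>] 0) (k : ℕ) {w : Form M} (hw : p11 S.J w.1 = w.1)
    (hw0 : NonnegJ S.J w.1) : part hD P hl (k + 1) w ≤ part hD P hl k w := by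
  refine sub_nonneg.1 (part_order hD hl
    (f := fun e x => P.top k e x - P.top (k + 1) e x)
    (fun e => (P.smooth_top k e).sub (P.smooth_top (k + 1) e))
    (fun e x => sub_nonneg.2 (high_succ_le (P.nonneg e x)))
    (fun e x => (sub_le_self _ (high_nonneg _ _)).trans (high_le_one _ _)) hw hw0
    (((tendsto_part hD P hl k w).sub (tendsto_part hD P hl (k + 1) w)).congr fun e => ?_))
  have e1 : fmul _ ((P.smooth_top k e).sub (P.smooth_top (k + 1) e)) w =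
      fmul _ (P.smooth_top k e) w - fmul _ (P.smooth_top (k + 1) e) w := by
    refine Subtype.ext (funext fun x => funext fun u => funext fun v => ?_)
    simp only [Submodule.coe_sub, fmul_coe, Pi.sub_apply, smulFn]
    ring
  rw [P.val_apply, P.val_apply, coe_p11L_self hw, e1, map_sub, map_sub]

theorem exists_sing (hD : Bounds O Rt D) (P : PotData O Rt) {l : Ultrafilter ℝ}
    (hl : (l : Filter ℝ) ≤ 𝓝[>] 0) :
    ∃ sing : Form M →ₗ[ℝ] ℝ, ∀ w,
      Tendsto (fun k => part hD P hl k w) atTop (𝓝 (sing w)) := by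
  obtain ⟨C, hC0, hC⟩ := Dual.exists_eval_bound S
  refine exists_limit_functional _ (fun w => p11 S.J w.1 = w.1 ∧ NonnegJ S.J w.1)
    (fun k w hw => part_nonneg hD P hl k hw.1 hw.2) (fun k w hw => part_anti hD P hl k hw.1 hw.2)
    fun w => ⟨p11L S.isJ w + (C * S.cN 0 w.1) • S.F, (C * S.cN 0 w.1) • S.F, ⟨?_, ?_⟩, ⟨?_, ?_⟩,
      fun k => ?_⟩
  · have h1 := (p11_eq_self_iff S.J _).1 (p11_p11 S.isJ w.2.isAltField)
    have h2 := (p11_eq_self_iff S.J _).1 S.F_inv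
    rw [p11_eq_self_iff]
    intro x u v
    simp only [Submodule.coe_add, Submodule.coe_smul, Pi.add_apply, Pi.smul_apply, smul_eq_mul,
      p11L_coe, h1, h2]
  · intro x v
    simp only [Submodule.coe_add, Submodule.coe_smul, Pi.add_apply, Pi.smul_apply, smul_eq_mul,
      p11L_coe, Dual.apply_J_p11 S w.2.isAltField]
    linarith [neg_abs_le (w.1 x v (S.J x v)), hC w x v]
  · exact p11_scalar_mul_F S _ (fun _ => C * S.cN 0 w.1) fun x u v => by simp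
  · exact fun x v => mul_nonneg (mul_nonneg hC0 (S.cN_nonneg 0 _)) (nonneg_F S x v)
  · rw [map_add, part_inv hD P hl k (p11L_coe S.isJ w), add_sub_cancel_right]

end Vale.Agent.P204.Full.Step5
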