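import Vale.Agent.P204.Full.Cut.Exact
import Vale.Agent.P204.Full.Cut.Diffuse

/-!
P204, steps 4 and 5: the energy estimate gives the cut of the positive functional (helper76).
-/

namespace Vale.Agent.P204.Full

open MeasureTheory Set Filter Topology
open scoped Manifold ContDiff

universe u

variable {M : Type u} [TopologicalSpace M] [CompactSpace M] [ChartedSpace E4 M]
  [IsManifold (𝓡 4) ∞ M] [MeasurableSpace M] [BorelSpace M]

/-- steps 4 and 5, given the toolbox of global facts -/
theorem energyCutSpec_of_tools {S : Setup M} (T : EndTools S) : EnergyCutSpec S := by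
  intro hR hE O hden hphi
  obtain ⟨R, Rt, hP⟩ := hR
  obtain ⟨D, hD⟩ := Step5.exists_bounds T O hden hP.right
  obtain ⟨P⟩ := Step5.exists_potData O hE hP hden hphi
  obtain ⟨l, hl⟩ := Dual.exists_ultrafilter_zero
  obtain ⟨sing, hsing⟩ := Step5.exists_sing hD P hl
  exact ⟨{
    part := fun k => Step5.part hD P hl k
    sing := sing
    part_inv := fun k w η h => Step5.part_inv hD P hl k h
    part_nonneg := fun k w h h0 => Step5.part_nonneg hD P hl k h h0
    part_le := fun k w h h0 => Step5.part_le hD hP.right P hl k h h0
    part_anti := fun k w h h0 => Step5.part_anti hD P hl k h h0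
    part_lim := hsing
    sing_exact := fun w hw => by
      obtain ⟨A, hA⟩ := Step5.exists_part_exact T hP.right hphi hD P hl hw
      refine tendsto_nhds_unique (hsing w) (squeeze_zero_norm
        (fun k => (Real.norm_eq_abs _).le.trans (hA k)) (tendsto_const_nhds.div_atTop ?_))
      exact Real.tendsto_sqrt_atTop.comp
        (tendsto_atTop_add_const_right _ 1 tendsto_natCast_atTop_atTop)
    diffuse := fun k K hK => Step5.diffuse_part T hP.right hD P hl k hK }⟩

end Vale.Agent.P204.Full
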